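import Claimed.Agent.R257.Frac.SdLoc

/-!
# R257 / Frac / Curve : superpositions of characters along a measurable map are `Mfs` fields          (helper188)          -- KEEP

`F z = ∫ ch (pr z (γ ξ)) g ξ dξ`, `g` integrable, `γ` measurable, `γ ξ ∈ S` on the support of `g`   ⟹   `Mfs S F`
(for `η = ∫ ch (pr z w) h w dw`:  `F η = ∫ ch (pr z w') G w' dw'`, `G w' = ∫ g ξ h (w' - γ ξ) dξ`; shear of the product, Fubini).      EXIT: `fc_mfs_curve`.   No sorry.
-/

set_option autoImplicit false
set_option linter.unusedSectionVars false
open MeasureTheory Set Metric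
open scoped ENNReal NNReal RealInnerProductSpace Pointwise

namespace Claimed.Agent.BD

noncomputable section

variable {V : Type} [NormedAddCommGroup V] [InnerProductSpace ℝ V] [FiniteDimensional ℝ V] [MeasurableSpace V] [BorelSpace V]

theorem fc_curve_int {g : V → ℂ} (hg : Integrable g) {γ : V → V × ℝ} (hγ : Measurable γ) (z : V × ℝ) :
    Integrable fun ξ => ch (pr z (γ ξ)) * g ξ := by
  refine hg.bdd_mul (c := 1) ?_ ?_
  · exact ((bdu_ch_cont.comp (bdu_pr_cont_right z)).measurable.comp hγ).aestronglyMeasurable
  · exact Filter.Eventually.of_forall fun ξ => (bdu_norm_ch _).le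

/-- the sheared product density is integrable -/
theorem fc_curve_prod {g : V → ℂ} (hg : Integrable g) {γ : V → V × ℝ} (hγ : Measurable γ) {h : V × ℝ → ℂ} (hh : Integrable h) :
    Integrable (fun q : V × (V × ℝ) => g q.1 * h (q.2 - γ q.1)) ((volume : Measure V).prod (volume : Measure (V × ℝ))) := by
  have := bdlc_haar (V := V)
  have h1 : Integrable (fun q : V × (V × ℝ) => g q.1 * h q.2) ((volume : Measure V).prod (volume : Measure (V × ℝ))) := hg.mul_prod hh
  have hsh : MeasurePreserving (fun q : V × (V × ℝ) => (id q.1, (fun (ξ : V) (w : V × ℝ) => w - γ ξ) q.1 q.2))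
      ((volume : Measure V).prod (volume : Measure (V × ℝ))) ((volume : Measure V).prod (volume : Measure (V × ℝ))) := by
    have hm : Measurable (Function.uncurry fun (ξ : V) (w : V × ℝ) => w - γ ξ) := measurable_snd.sub (hγ.comp measurable_fst)
    exact MeasurePreserving.skew_product (μa := (volume : Measure V)) (μb := (volume : Measure V)) (μc := (volume : Measure (V × ℝ)))
      (μd := (volume : Measure (V × ℝ))) (MeasurePreserving.id (volume : Measure V)) hm
      (Filter.Eventually.of_forall fun ξ => (measurePreserving_sub_right volume (γ ξ)).map_eq)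
  exact hsh.integrable_comp_of_integrable h1

/-- **superpositions of characters along `γ` are `Mfs` fields** -/
theorem fc_mfs_curve {g : V → ℂ} (hg : Integrable g) {γ : V → V × ℝ} (hγ : Measurable γ) {S : Set (V × ℝ)} (hS : ∀ ξ, g ξ ≠ 0 → γ ξ ∈ S) :
    Mfs S (fun z => ∫ ξ, ch (pr z (γ ξ)) * g ξ) := by
  have hhaar := bdlc_haar (V := V)
  refine ⟨?_, fun T η hη => ?_⟩
  · refine continuous_of_dominated (bound := fun w => ‖g w‖) (fun z => (fc_curve_int hg hγ z).aestronglyMeasurable) (fun z => ?_) hg.norm ?_
    · exact Filter.Eventually.of_forall fun w => by rw [norm_mul, norm_ch, one_mul]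
    · refine Filter.Eventually.of_forall fun w => ?_
      have hc : Continuous fun z : V × ℝ => pr z (γ w) := by
        unfold pr
        fun_prop
      exact (bdu_ch_cont.comp hc).mul continuous_const
  · obtain ⟨h, h1, h2, h3⟩ := hη
    have hprod := fc_curve_prod hg hγ h1
    refine ⟨fun w' => ∫ ξ, g ξ * h (w' - γ ξ), hprod.integral_prod_right, fun w' hw' => ?_, fun z => ?_⟩
    · apply integral_eq_zero_of_ae
      refine Filter.Eventually.of_forall fun ξ => ?_
      simp only [Pi.zero_apply]
      by_cases hξ : g ξ = 0
      · rw [hξ, zero_mul]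
      · have : w' - γ ξ ∉ T := fun hT => hw' ⟨γ ξ, hS ξ hξ, w' - γ ξ, hT, by simp⟩
        rw [h2 _ this, mul_zero]
    · beta_reduce
      -- the product density with the character
      have hprod' : Integrable (Function.uncurry fun (ξ : V) (w' : V × ℝ) => ch (pr z w') * (g ξ * h (w' - γ ξ)))
          ((volume : Measure V).prod (volume : Measure (V × ℝ))) := by
        refine hprod.bdd_mul (c := 1) ?_ ?_
        · exact ((bdu_ch_cont.comp (bdu_pr_cont_right z)).measurable.comp measurable_snd).aestronglyMeasurable
        · exact Filter.Eventually.of_forall fun q => (bdu_norm_ch _).le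
      calc (∫ ξ, ch (pr z (γ ξ)) * g ξ) * η z = ∫ ξ, ch (pr z (γ ξ)) * g ξ * η z := (integral_mul_const _ _).symm
        _ = ∫ ξ, ∫ w', ch (pr z w') * (g ξ * h (w' - γ ξ)) := by
            refine integral_congr_ae (Filter.Eventually.of_forall fun ξ => ?_)
            beta_reduce
            rw [h3 z, ← integral_const_mul, ← integral_sub_right_eq_self (fun w => ch (pr z (γ ξ)) * g ξ * (ch (pr z w) * h w)) (γ ξ)]
            congr 1
            ext w
            have : ch (pr z w) = ch (pr z (γ ξ)) * ch (pr z (w - γ ξ)) := by
              rw [← bdu_ch_add, ← bdu_pr_add_right]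
              congr 2
              abel
            rw [this]
            ring
        _ = ∫ w', ∫ ξ, ch (pr z w') * (g ξ * h (w' - γ ξ)) := integral_integral_swap hprod'
        _ = ∫ w', ch (pr z w') * ∫ ξ, g ξ * h (w' - γ ξ) := by
            congr 1
            ext w'
            rw [integral_const_mul]

end

end Claimed.Agent.BD
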