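import Claimed.Agent.R257.Frac.Defs

/-!
# R257 / Frac / Pkt : CONTRACT `PktStmt n` = Lemma d:packet-expansion in the language of the exact arrays `XArr` of `Sp/Defs.lean`          (captain helper188; owner of the proof: helper245)          -- SHARED, FROZEN

At every scale `l ≥ 1` a datum `g` (`Dat R₀ g`) is a superposition of exact packets of scale `l`:  caps `ω_j = j/l`, Fourier series on the caps (report 853, U4 PKT + U5 PROF):
`v_{j,m}(ξ) = χ(l(ξ - ω_j)) (l/2)^{n/2} e^{-iπ l m·(ξ - ω_j)}`, `c_{j,m} = ∫ g conj v_{j,m}`, labels `om = ω_j`, `y = π l m`, common shift `0`.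
* every FINITE subfamily belongs to ONE class `XArr.In` (supports, Bessel for all subfamilies, decay `C₃ l^{-n/2} σ^A w^A` for ALL times, phase space multiplicity);
* `∑ |c|² ≤ Ce ‖g‖²` (tight frame: `Ce = 1`);      * `ext g z = ∑ c_α ext (g_α) z` (`HasSum`, every `z`);      * a label with `c_α ≠ 0` is `C₁/l`-close to the support of `g`.
CONSUMERS: `fc_fractal` (contract A), `fc_stripSave` (d:strip).
-/

set_option autoImplicit false

namespace Claimed.Agent.R257

open MeasureTheory Metric Set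
open scoped ENNReal

/-- **Lemma d:packet-expansion** (exact packets at scale `l`) -/
def PktStmt (n : ℕ) : Prop :=
  ∀ (R₀ : ℝ) (A : ℕ), ∃ (Rw C₁ C₂ C₃ Ce : ℝ) (m₀ : ℕ), Real.sqrt n ≤ Rw ∧ 0 ≤ C₁ ∧ 0 ≤ Ce ∧
    ∀ (l : ℝ) (g : E n → ℂ), 1 ≤ l → Dat R₀ g →
      ∃ (J : Type) (N : XArr n J) (c : J → ℂ), N.l = l ∧ N.sh = 0 ∧
        (∀ s : Finset J, N.In s ⟨A, Rw, C₁, C₂, C₃, m₀⟩) ∧
        (∀ s : Finset J, energy s c ≤ Ce * ∫ ξ, ‖g ξ‖ ^ 2) ∧
        (∀ z : ST n, HasSum (fun α => c α * ext (N.g α) z) (ext g z)) ∧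
        (∀ α, c α ≠ 0 → ∃ ξ, g ξ ≠ 0 ∧ ‖ξ - N.om α‖ ≤ C₁ / l)

/-- Stores the on-demand equation lemmas of the definitions above in THIS module (rule 6 hygiene). -/
theorem fc_pkt_forced : True := by
  have := @PktStmt.eq_1
  trivial

end Claimed.Agent.R257
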