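import Claimed.Agent.R257.Frac.Sd
import Claimed.Agent.Lib.BD.Top

/-!
# R257 / Frac / Bd : d:strip-decoupling WITHOUT HYPOTHESES (Bourgain-Demeter = `BD.bd_main`)          (helper188)          -- KEEP
`fc_sdGenStmt n : SdGenStmt n`,   `fc_sd : 2 ≤ n → SdStmt n`.   No sorry.
-/

set_option autoImplicit false

namespace Claimed.Agent.R257

theorem fc_bdAll : BdAll := fun j p η hp hpj hη =>
  BD.bd_main (V := E j) hp (by rw [finrank_euclideanSpace_fin]; exact hpj) hη

/-- **Lemma d:strip-decoupling** -/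
theorem fc_sdGenStmt (n : ℕ) : SdGenStmt n := fc_sdGen fc_bdAll n

/-- **the contract of SPFL** -/
theorem fc_sd {n : ℕ} (hn : 2 ≤ n) : SdStmt n := fc_sdStmt hn (fc_sdGenStmt n)

end Claimed.Agent.R257
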