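import Claimed.Agent.R257.Frac.GDefs
import Claimed.Agent.Lib.BD.Cyl

/-!
# R257 / Frac / Cyl : THE ITERATED CYLINDER LEMMA          (helper188)          -- KEEP

A robust family of `V` whose centres are close to an affine subspace of codimension `r` is decoupled (globally) with the constant of the model space of dimension `finrank V - r`.
One step = `bdc_cyl` of `Lib/BD/Cyl.lean` (splitting, Galilean map, slices, Tonelli + Minkowski) with the remaining `r` normals carried along.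
EXIT: `fc_strip_glob`.   No sorry.
-/

set_option autoImplicit false
set_option linter.unusedSectionVars false
open MeasureTheory Set
open scoped ENNReal NNReal RealInnerProductSpace

namespace Claimed.Agent.BD

noncomputable section

variable {V W : Type} [NormedAddCommGroup V] [InnerProductSpace ℝ V] [FiniteDimensional ℝ V] [MeasurableSpace V] [BorelSpace V]
  [NormedAddCommGroup W] [InnerProductSpace ℝ W] [FiniteDimensional ℝ W] [MeasurableSpace W] [BorelSpace W]

/-- decoupling slice by slice, the inequality on the slices as a hypothesis (proof of `bdc_core`) -/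
theorem fc_core (e : V ≃ₗᵢ[ℝ] WithLp 2 (W × ℝ)) (p : ℝ) (hp : 2 ≤ p) (D : ℝ≥0∞) {ι : Type} (s : Finset ι)
    (H : ι → V × ℝ → ℂ) (hm : ∀ j ∈ s, Measurable (H j))
    (hsl : ∀ y, nm p (fun q => ∑ j ∈ s, cySl e (H j) y q) ≤ D * (∑ j ∈ s, nm p (cySl e (H j) y) ^ (2 : ℝ)) ^ (1 / 2 : ℝ)) :
    nm p (fun z => ∑ j ∈ s, H j z) ≤ D * (∑ j ∈ s, nm p (H j) ^ (2 : ℝ)) ^ (1 / 2 : ℝ) := by
  have hp0 : 0 < p := by linarith
  have hq : 1 ≤ p / 2 := by linarith
  have hq0 : 0 < p / 2 := by linarith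
  unfold nm
  refine bdc_pow' p hp0 D _ s _ ?_
  have hms : Measurable fun z => ∑ j ∈ s, H j z := Finset.measurable_fun_sum s hm
  rw [bdc_ip_slice e p _ hms]
  have h1 : ∀ y, ip p (cySl e (fun z => ∑ j ∈ s, H j z) y) ≤ D ^ p * (∑ j ∈ s, ip p (cySl e (H j) y) ^ (2 / p)) ^ (p / 2) := by
    intro y
    exact bdc_pow p hp0 D _ s _ (hsl y)
  refine (lintegral_mono h1).trans ?_
  have hmeas : Measurable fun y => (∑ j ∈ s, ip p (cySl e (H j) y) ^ (2 / p)) ^ (p / 2) :=
    (Finset.measurable_fun_sum s fun j hj => (bdc_ip_meas e p (H j) (hm j hj)).pow_const _).pow_const _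
  rw [lintegral_const_mul _ hmeas]
  gcongr
  have h2 := bdc_mink volume s (fun j y => ip p (cySl e (H j) y) ^ (2 / p))
    (fun j hj => ((bdc_ip_meas e p (H j) (hm j hj)).pow_const _).aemeasurable) (p / 2) hq
  have h3 : ∀ j ∈ s, (∫⁻ y, (ip p (cySl e (H j) y) ^ (2 / p)) ^ (p / 2)) ^ (1 / (p / 2)) = ip p (H j) ^ (2 / p) := by
    intro j hj
    rw [bdc_ip_slice e p (H j) (hm j hj)]
    congr 1
    · refine lintegral_congr fun y => ?_
      rw [← ENNReal.rpow_mul]
      have : 2 / p * (p / 2) = 1 := by field_simp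
      rw [this, ENNReal.rpow_one]
    · field_simp
  rw [Finset.sum_congr rfl h3] at h2
  have h4 := ENNReal.rpow_le_rpow h2 hq0.le
  rw [← ENNReal.rpow_mul] at h4
  have : 1 / (p / 2) * (p / 2) = 1 := by field_simp
  rw [this, ENNReal.rpow_one] at h4
  exact h4

/-- the inner product in the coordinates of a splitting -/
theorem fc_inner_split (e : V ≃ₗᵢ[ℝ] WithLp 2 (W × ℝ)) (a b : V) :
    inner ℝ a b = inner ℝ (cyW e a) (cyW e b) + cyA e a * cyA e b := by
  conv_lhs => rw [← bdc_J_WA e a, ← bdc_J_WA e b]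
  rw [bdc_J_inner]

theorem fc_nearFlat_mono {r : ℕ} {lam lam' : ℝ} (h : lam ≤ lam') {ι : Type} {s : Finset ι} {u : ι → V} (hu : NearFlat r lam s u) :
    NearFlat r lam' s u := by
  obtain ⟨N, c, hN, hc⟩ := hu
  exact ⟨N, c, hN, fun i j hj => (hc i j hj).trans h⟩

/-- `r = 0` -/
theorem fc_strip_zero {p C ρ : ℝ} {D : ℝ≥0∞} (h : DecLe V p C ρ D) : StripLe V 0 p C ρ D :=
  fun ι s v H hR _ => h ι s v H hR

/-- **one step**: codimension `r + 1` in `V` from codimension `r` in the model hyperplane `W` -/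
theorem fc_strip_succ (hW : Module.finrank ℝ V = Module.finrank ℝ W + 1) (r : ℕ) (p : ℝ) (hp : 2 ≤ p) (C : ℝ) (hC : 1 ≤ C) :
    ∃ C' : ℝ, 1 ≤ C' ∧ ∀ (ρ : ℝ) (D : ℝ≥0∞), 0 < ρ → ρ ≤ 1 → StripLe W r p C' ρ D → StripLe V (r + 1) p C ρ D := by
  obtain ⟨C₁, hC₁⟩ := bdc_rob_slice (V := V) (W := W) (3 * C) (by linarith)
  refine ⟨max C₁ C, hC.trans (le_max_right _ _), fun ρ D hρ hρ1 hD ι s v H hR hF => ?_⟩
  obtain ⟨N, c, hN, hc⟩ := hF
  set n : V := N (Fin.last r) with hn_def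
  set c₀ : ℝ := c (Fin.last r) with hc₀
  have hn : ‖n‖ = 1 := hN.1 _
  obtain ⟨e, he⟩ := bdc_split (W := W) hW n hn
  have hb : ∀ j ∈ s, ‖v j - c₀ • n‖ ≤ 3 * C := by
    intro j hj
    have h1 : |inner ℝ n (v j)| ≤ ‖v j‖ := by
      have := abs_real_inner_le_norm n (v j)
      rwa [hn, one_mul] at this
    have h2 : |c₀| ≤ 2 * C := by
      have h3 := hc (Fin.last r) j hj
      have h4 := hR.bdd j hj
      have h5 : C * ρ ≤ C := by nlinarith
      have h6 : |c₀| ≤ |inner ℝ n (v j)| + |inner ℝ n (v j) - c₀| := by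
        have := abs_sub_abs_le_abs_sub c₀ (inner ℝ n (v j))
        rw [abs_sub_comm] at this
        linarith
      linarith
    calc ‖v j - c₀ • n‖ ≤ ‖v j‖ + ‖c₀ • n‖ := norm_sub_le _ _
      _ = ‖v j‖ + |c₀| := by rw [norm_smul, hn, mul_one, Real.norm_eq_abs]
      _ ≤ 3 * C := by have := hR.bdd j hj; linarith
  obtain ⟨G, hG1, hG2, hG3⟩ := bdc_gal_dec (c₀ • n) p C ρ s v H hR (3 * C) (by linarith) hρ.le hb
  rw [hG3, Finset.sum_congr rfl fun j hj => by rw [hG2 j hj]]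
  have hA : ∀ j ∈ s, |cyA e (v j - c₀ • n)| ≤ 3 * C * ρ := by
    intro j hj
    rw [he, inner_sub_right, real_inner_smul_right, real_inner_self_eq_norm_sq, hn]
    have := hc (Fin.last r) j hj
    have h5 : C * ρ ≤ 3 * C * ρ := by nlinarith
    simpa using this.trans h5
  have hsl := hC₁ e ρ hρ ι s _ G hG1 hA
  -- the remaining normals
  have hA0 : ∀ i : Fin r, cyA e (N i.castSucc) = 0 := by
    intro i
    rw [he]
    exact hN.2 (fun h => (Fin.castSucc_lt_last i).ne h.symm)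
  have hflat : NearFlat r (max C₁ C * ρ) s (fun j => cyW e (v j - c₀ • n)) := by
    refine ⟨fun i => cyW e (N i.castSucc), fun i => c i.castSucc, ?_, fun i j hj => ?_⟩
    · rw [orthonormal_iff_ite]
      intro i k
      have h1 := fc_inner_split e (N i.castSucc) (N k.castSucc)
      rw [hA0 i, zero_mul, add_zero] at h1
      rw [← h1, orthonormal_iff_ite.1 hN]
      simp [Fin.ext_iff]
    · have h1 := fc_inner_split e (N i.castSucc) (v j - c₀ • n)
      rw [hA0 i, zero_mul, add_zero] at h1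
      have h2 : inner ℝ (N i.castSucc) n = (0 : ℝ) := hN.2 (Fin.castSucc_lt_last i).ne
      rw [← h1, inner_sub_right, real_inner_smul_right, h2, mul_zero, sub_zero]
      exact (hc i.castSucc j hj).trans (mul_le_mul_of_nonneg_right (le_max_right _ _) hρ.le)
  refine fc_core e p hp D s G (fun j hj => (bdc_fs_cont (hG1.fs j hj)).measurable) fun y => ?_
  exact hD ι s _ _ (bdc_rob_mono (le_max_left _ _) hρ.le (hsl y)) hflat

/-- **THE ITERATED CYLINDER LEMMA** for the model spaces `EuclideanSpace ℝ (Fin m)` -/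
theorem fc_strip_glob (j r : ℕ) (p : ℝ) (hp : 2 ≤ p) (C : ℝ) (hC : 1 ≤ C) :
    ∃ C' : ℝ, 1 ≤ C' ∧ ∀ (ρ : ℝ) (D : ℝ≥0∞), 0 < ρ → ρ ≤ 1 → DecLe (EuclideanSpace ℝ (Fin j)) p C' ρ D →
      StripLe (EuclideanSpace ℝ (Fin (j + r))) r p C ρ D := by
  induction r generalizing C with
  | zero => exact ⟨C, hC, fun ρ D _ _ h => fc_strip_zero h⟩
  | succ r ih =>
    obtain ⟨C₁, hC₁, h1⟩ := fc_strip_succ (V := EuclideanSpace ℝ (Fin (j + (r + 1)))) (W := EuclideanSpace ℝ (Fin (j + r)))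
      (by simp [add_assoc]) r p hp C hC
    obtain ⟨C₂, hC₂, h2⟩ := ih C₁ hC₁
    exact ⟨C₂, hC₂, fun ρ D hρ hρ1 h => h1 ρ D hρ hρ1 (h2 ρ D hρ hρ1 h)⟩

end

end Claimed.Agent.BD
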