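import Claimed.Agent.R257.Frac.GDefs
import Claimed.Agent.R257.Sp.Defs

/-!
# R257 / Frac / Defs : CONTRACTS OF THE PACKAGE FRAC (H fractal.tex)          (captain helper188)          -- SHARED, FROZEN

| contract | content | owner | consumers |
| `BdAll` | Bourgain-Demeter, all dimensions `j`, `2 ≤ p`, `p j ≤ 2 (j+2)` (= `bd_main` of `Lib/BD`) | BD (203, 266) | FRAC |
| `SdGenStmt n` | d:strip-decoupling: ANY codimension `r = n - j`, any `P` with `P j ≤ 2 (j+2)`, fields = `PRob` (exact fields, thick fields, `FS` fields), the SAME weight `spW Ew K²` on both sides, pointwise in the centre | FRAC (188) | SPFL (`SdStmt n`, `r = 1`), AN (`r = 2`), DZ (`r = 0, 1`), d:strip |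
| `FractalStmt n` | CONTRACT A = d:fractal with `d = 1`, SLAB FORM (no spatial support condition) | DZ (helper3) | d:power-loss (245), d:strip (188), TR (l.179, radius `L`) |
| `StripSaveStmt n` | d:strip (codimension two strip saving), measure form, slab form | FRAC (188) | TR (l.192-199) |
The cube functional `𝒯_b` and Lemma d:transport of the paper are REPLACED by the continuous functional `spT` of `Sp/Defs.lean` and its transport lemma (helper7, general `b`).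
SIGNS.  `Lib/BD` uses `e^{i(x·ξ + tτ)}`, `τ = |ξ|²`; the paper `e^{i(x·ξ - t|ξ|²)}`.  ADAPTER: complex conjugation, `conj (car ξ z) = ch (pr z (-ξ, |ξ|²))`; only `‖·‖` of the fields enters; centres `v ↦ -v`.
-/

set_option autoImplicit false

namespace Claimed.Agent.R257

open MeasureTheory Metric Set
open scoped ENNReal

variable {n : ℕ} {ι : Type}

/-- Bourgain-Demeter for all model spaces `E j` -/
def BdAll : Prop := ∀ (j : ℕ) (p η : ℝ), 2 ≤ p → p * j ≤ 2 * ((j : ℝ) + 2) → 0 < η → BD.DecPow (E j) p η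

/-- `F` (paper sign) has space-time Fourier support in the cap over `B(v,a)`, vertical thickness `b` -/
def PCap (v : E n) (a b : ℝ) (F : ST n → ℂ) : Prop := BD.Mfs (BD.cap (-v) a b) (fun z => (starRingEnd ℂ) (F z))

/-- robust family of fields (paper sign) at scale `ρ`: centres in the ball `C`, at most `C` centres in a `ρ`-ball, `H θ` in the cap `(v θ, C ρ, C ρ²)` -/
structure PRob (C ρ : ℝ) (s : Finset ι) (v : ι → E n) (H : ι → ST n → ℂ) : Prop where
  bdd : ∀ j ∈ s, ‖v j‖ ≤ C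
  mult : ∀ ξ : E n, ∀ t ⊆ s, (∀ j ∈ t, ‖v j - ξ‖ ≤ ρ) → (t.card : ℝ) ≤ C
  fs : ∀ j ∈ s, PCap (v j) (C * ρ) (C * ρ ^ 2) (H j)

/-- **d:strip-decoupling with explicit constants**, codimension `r` -/
def SdGenWith (n r : ℕ) (P Cr ε Ew C : ℝ) : Prop :=
  ∀ (K : ℝ) (Θ : Type) (S : Finset Θ) (v : Θ → E n) (H : Θ → ST n → ℂ) (z : ST n), 1 ≤ K → PRob Cr K⁻¹ S v H →
    BD.NearFlat r (Cr * K⁻¹) S v →
    spLoc P (spW Ew (K ^ 2)) (fun y => ∑ θ ∈ S, H θ y) z ^ (2 / P) ≤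
      ENNReal.ofReal (C * K ^ ε) * ∑ θ ∈ S, spLoc P (spW Ew (K ^ 2)) (H θ) z ^ (2 / P)

/-- **Lemma d:strip-decoupling** -/
def SdGenStmt (n : ℕ) : Prop :=
  ∀ (j r : ℕ) (P Cr ε Ew : ℝ), j + r = n → 2 ≤ P → P * j ≤ 2 * ((j : ℝ) + 2) → 0 < ε → 0 ≤ Ew → ∃ C : ℝ, SdGenWith n r P Cr ε Ew C

/-- **Contract A with explicit constants** (d:fractal, `d = 1`, slab form): `∑_q μ(q)^β sup_q |Eg|² ≤ C m^β S^{n/(n+1)+ε} ‖g‖²` -/
def FractalWith (n : ℕ) (R₀ ε C : ℝ) : Prop :=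
  ∀ (S m : ℝ) (μ : Measure (ST n)) (g : E n → ℂ), 1 ≤ S → 0 ≤ m → Grow μ m n → Slab μ S → Dat R₀ g →
    supN (bet n) μ (ext g) ≤ ENNReal.ofReal (C * m ^ bet n * S ^ ((n : ℝ) / ((n : ℝ) + 1) + ε) * ∫ ξ, ‖g ξ‖ ^ 2)

/-- **Contract A** -/
def FractalStmt (n : ℕ) : Prop := ∀ R₀ ε : ℝ, 0 < ε → ∃ C : ℝ, FractalWith n R₀ ε C

/-- **d:strip with explicit constants**: data within `Cs S^(-α)` of an affine subspace of codimension two -/
def StripSaveWith (n : ℕ) (R₀ Cs α b c₀ ε C : ℝ) : Prop :=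
  ∀ (S m : ℝ) (μ : Measure (ST n)) (g : E n → ℂ) (N : Fin 2 → E n) (c : Fin 2 → ℝ), 1 ≤ S → 0 ≤ m → Grow μ m n → Slab μ S → Dat R₀ g →
    Orthonormal ℝ N → (∀ ξ, g ξ ≠ 0 → ∀ i, |inner ℝ (N i) ξ - c i| ≤ Cs * S ^ (-α)) →
    supN b μ (ext g) ≤ ENNReal.ofReal (C * m ^ b * S ^ ((n : ℝ) / ((n : ℝ) + 1) - c₀ * α + ε) * ∫ ξ, ‖g ξ‖ ^ 2)

/-- **Proposition d:strip** (the counting form of the paper = the counting measure of the centres of the selected cubes; `c₀` does not depend on `α`) -/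
def StripSaveStmt (n : ℕ) : Prop :=
  ∀ b : ℝ, bet n < b → b * n < 2 → ∃ c₀ : ℝ, 0 < c₀ ∧ ∀ R₀ Cs α ε : ℝ, 0 < α → α < 1 / 8 → 0 < ε → ∃ C : ℝ, StripSaveWith n R₀ Cs α b c₀ ε C

/-- Stores the on-demand equation lemmas of the definitions above in THIS module (rule 6 hygiene). -/
theorem fc_defs_forced : True := by
  have := @BdAll.eq_1
  have := @PCap.eq_1
  have := @SdGenWith.eq_1
  have := @SdGenStmt.eq_1
  have := @FractalWith.eq_1
  have := @FractalStmt.eq_1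
  have := @StripSaveWith.eq_1
  have := @StripSaveStmt.eq_1
  trivial

end Claimed.Agent.R257
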