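import Claimed.Agent.R257.Frac.Strip
import Claimed.Agent.R257.Frac.Bd
import Claimed.Agent.R257.Infra.Repro
import Claimed.Agent.R257.Infra.Pkt.Main
import Claimed.Agent.R257.Mr.Sup

/-!
# R257 / Frac / Exit : the two exits of FRAC with all closed contracts discharged          (captain helper188)

`fc_strip_main`, `fc_fractal_main` : UNCONDITIONAL (with `mr_sup` of `R257/Mr/Sup.lean`).
* `fc_strip_exit : 2 ≤ n → MrSupStmt n → StripSaveStmt n`   (Proposition d:strip, measure form)
* `fc_fractal_exit : 2 ≤ n → MrSupStmt n → FractalStmt n`   (contract A = d:fractal, `d = 1`, slab form)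
-/

set_option autoImplicit false

namespace Claimed.Agent.R257

theorem fc_strip_exit (n : ℕ) (hn : 2 ≤ n) (hMr : MrSupStmt n) : StripSaveStmt n :=
  fc_stripSave n hn (fc_sdGenStmt n) (fc_sd hn) (inf_lc n) hMr (ifp_pkt n)

theorem fc_fractal_exit (n : ℕ) (hn : 2 ≤ n) (hMr : MrSupStmt n) : FractalStmt n :=
  fc_fractal n hn (fc_sd hn) (inf_lc n) hMr (ifp_pkt n)

/-- **Proposition d:strip**, UNCONDITIONAL (axioms: the standard three) -/
theorem fc_strip_main (n : ℕ) (hn : 2 ≤ n) : StripSaveStmt n := fc_strip_exit n hn (mr_sup n (by omega))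

/-- **Proposition d:fractal** (`d = 1`), UNCONDITIONAL (axioms: the standard three) -/
theorem fc_fractal_main (n : ℕ) (hn : 2 ≤ n) : FractalStmt n := fc_fractal_exit n hn (mr_sup n (by omega))

end Claimed.Agent.R257
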