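import Claimed.Agent.Lib.BD.Defs

/-!
# R257 / Frac / GDefs : strip decoupling (H fractal.tex, Lemma d:strip-decoupling), GENERIC DEFINITIONS      (captain helper188)      -- KEEP

Language of `Lib/BD/Defs.lean` (abstract `V`, pairing `pr`, character `ch`, `FS`, `cap`, `Rob`, `DecLe`, weight `wt`).
* `Mfs S F`  : MULTIPLIER FORM of "space-time Fourier support in `S`": `F` is continuous and `F η ∈ FS (S + T)` for every `η ∈ FS T`.   It covers `FS S` (`FS.mul`) AND the exact fields
  (Fourier transform = a measure on the paraboloid, NOT in `FS`), and it is all that the localisation `F ↦ F η((· - z)/R)` needs.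
* `LRob C ρ s v H` : robust family (as `Rob`) of `Mfs` fields.
* `NearFlat r lam s u` : the points `u j` are `lam`-close to an affine subspace of codimension `r` (given by `r` orthonormal normals).
* `StripLe V r p C ρ D` : GLOBAL decoupling constant of the robust families whose centres are `C ρ`-close to an affine subspace of codimension `r`  (`r = 0`: `DecLe`).
* `SdLe V r p C ρ Ew D` : LOCAL decoupling (squared norms), the SAME weight `wt Ew R (· - z)`, `R ≥ ρ⁻²`, on both sides, pointwise in the centre `z`.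
-/

set_option autoImplicit false
open MeasureTheory Set
open scoped ENNReal NNReal RealInnerProductSpace Pointwise

namespace Claimed.Agent.BD

noncomputable section

variable {V : Type} [NormedAddCommGroup V] [InnerProductSpace ℝ V] [FiniteDimensional ℝ V] [MeasurableSpace V] [BorelSpace V]

/-- multiplier form of "Fourier support in `S`". -/
structure Mfs (S : Set (V × ℝ)) (F : V × ℝ → ℂ) : Prop where
  cont : Continuous F
  mul : ∀ (T : Set (V × ℝ)) (η : V × ℝ → ℂ), FS T η → FS (S + T) (fun z => F z * η z)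

/-- robust family of `Mfs` fields at scale `ρ`. -/
structure LRob (C ρ : ℝ) {ι : Type} (s : Finset ι) (v : ι → V) (H : ι → V × ℝ → ℂ) : Prop where
  bdd : ∀ j ∈ s, ‖v j‖ ≤ C
  mult : ∀ ξ : V, ∀ t ⊆ s, (∀ j ∈ t, ‖v j - ξ‖ ≤ ρ) → (t.card : ℝ) ≤ C
  fs : ∀ j ∈ s, Mfs (cap (v j) (C * ρ) (C * ρ ^ 2)) (H j)

/-- the points `u j`, `j ∈ s`, are `lam`-close to an affine subspace of codimension `r`. -/
def NearFlat (r : ℕ) (lam : ℝ) {ι : Type} (s : Finset ι) (u : ι → V) : Prop :=
  ∃ (N : Fin r → V) (c : Fin r → ℝ), Orthonormal ℝ N ∧ ∀ i, ∀ j ∈ s, |inner ℝ (N i) (u j) - c i| ≤ lam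

variable (V) in
/-- global decoupling constant of the robust families with centres `C ρ`-close to an affine subspace of codimension `r`. -/
def StripLe (r : ℕ) (p C ρ : ℝ) (D : ℝ≥0∞) : Prop :=
  ∀ (ι : Type) (s : Finset ι) (v : ι → V) (H : ι → V × ℝ → ℂ), Rob C ρ s v H → NearFlat r (C * ρ) s v →
    nm p (fun z => ∑ j ∈ s, H j z) ≤ D * (∑ j ∈ s, nm p (H j) ^ (2 : ℝ)) ^ (1 / 2 : ℝ)

/-- `∫ |F y|^p (1 + |y - z|/R)^(-Ew) dy`. -/
def wip (p Ew R : ℝ) (F : V × ℝ → ℂ) (z : V × ℝ) : ℝ≥0∞ := ∫⁻ y, ‖F y‖ₑ ^ p * wt Ew R (y - z)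

variable (V) in
/-- local decoupling, squared norms, the same weight on both sides, pointwise in the centre. -/
def SdLe (r : ℕ) (p C ρ Ew : ℝ) (D : ℝ≥0∞) : Prop :=
  ∀ (ι : Type) (s : Finset ι) (v : ι → V) (H : ι → V × ℝ → ℂ), LRob C ρ s v H → NearFlat r (C * ρ) s v →
    ∀ (R : ℝ) (z : V × ℝ), ρ⁻¹ ^ 2 ≤ R →
      wip p Ew R (fun y => ∑ j ∈ s, H j y) z ^ (2 / p) ≤ D * ∑ j ∈ s, wip p Ew R (H j) z ^ (2 / p)

/-- Stores the on-demand equation lemmas of the definitions above in THIS module (rule 6 hygiene). -/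
theorem fc_gdefs_forced : True := by
  have := @NearFlat.eq_1
  have := @StripLe.eq_1
  have := @wip.eq_1
  have := @SdLe.eq_1
  trivial

end

end Claimed.Agent.BD
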