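import Claimed.Agent.R257.Frac.Defs
import Claimed.Agent.R257.Frac.Curve

/-!
# R257 / Frac / Sd : LEMMA d:strip-decoupling          (helper188)          -- KEEP

* `fc_pcap_ext`  : exact fields are `PCap` fields;   `fc_pcap_of_fs` : fields with `conj F ∈ FS` are `PCap` fields
* `fc_sdGen : BdAll → SdGenStmt n`     (iterated cylinder lemma `fc_strip_glob` + localisation `fc_sd_loc`)
* `fc_sdStmt : 2 ≤ n → SdGenStmt n → SdStmt n`     (the contract of SPFL, `Sp/Defs.lean`)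
No sorry.
-/

set_option autoImplicit false

namespace Claimed.Agent.R257

open MeasureTheory Metric Set
open scoped ENNReal

variable {n : ℕ} {ι : Type}

/-- the adapter of the signs -/
theorem fc_conj_car (ξ : E n) (z : ST n) : (starRingEnd ℂ) (car ξ z) = BD.ch (BD.pr z (-ξ, ‖ξ‖ ^ 2)) := by
  unfold car BD.ch BD.pr
  rw [← Complex.exp_conj]
  congr 1
  simp only [map_mul, Complex.conj_I, Complex.conj_ofReal, inner_neg_right]
  push_cast
  ring

theorem fc_dat_integrable {R₀ : ℝ} {g : E n → ℂ} (hg : Dat R₀ g) : Integrable g := by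
  have h1 : IntegrableOn g (closedBall (0 : E n) R₀) volume := by
    have : IsFiniteMeasure (volume.restrict (closedBall (0 : E n) R₀)) := ⟨by
      rw [Measure.restrict_apply MeasurableSet.univ, univ_inter]
      exact measure_closedBall_lt_top⟩
    exact (hg.l2.restrict _).integrable (by norm_num)
  refine h1.integrable_of_forall_notMem_eq_zero fun ξ hξ => ?_
  by_contra h
  exact hξ (by rw [mem_closedBall_zero_iff]; exact hg.supp ξ h)

/-- **exact fields are `PCap` fields** -/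
theorem fc_pcap_ext {g : E n → ℂ} (hg : Integrable g) (v : E n) (a : ℝ) (hs : ∀ ξ, g ξ ≠ 0 → ‖ξ - v‖ ≤ a) : PCap v a 0 (ext g) := by
  unfold PCap
  have hγ : Measurable fun ξ : E n => ((-ξ, ‖ξ‖ ^ 2) : E n × ℝ) := by fun_prop
  have hg' : Integrable fun ξ => (starRingEnd ℂ) (g ξ) :=
    (RCLike.conjLIE (K := ℂ)).toLinearIsometry.toContinuousLinearMap.integrable_comp hg
  have h1 := BD.fc_mfs_curve (V := E n) hg' hγ (S := BD.cap (-v) a 0) (fun ξ hξ => by
    have h0 : g ξ ≠ 0 := fun h => hξ (by rw [h, map_zero])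
    refine ⟨?_, ?_⟩
    · show ‖-ξ - -v‖ ≤ a
      rw [← neg_sub', norm_neg]
      exact hs ξ h0
    · show |‖ξ‖ ^ 2 - ‖-ξ‖ ^ 2| ≤ 0
      simp)
  have e : (fun z => (starRingEnd ℂ) (ext g z)) = fun z : ST n => ∫ ξ, BD.ch (BD.pr z (-ξ, ‖ξ‖ ^ 2)) * (starRingEnd ℂ) (g ξ) := by
    funext z
    unfold ext
    rw [← integral_conj]
    congr 1
    ext ξ
    rw [map_mul, fc_conj_car]
  rw [e]
  exact h1

theorem PCap.mono {v : E n} {a a' b b' : ℝ} {F : ST n → ℂ} (h : PCap v a b F) (ha : a ≤ a') (hb : b ≤ b') : PCap v a' b' F :=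
  BD.Mfs.mono h (BD.cap_mono ha hb)

/-- fields whose conjugate is an `FS` field -/
theorem fc_pcap_of_fs {v : E n} {a b : ℝ} {F : ST n → ℂ} (h : BD.FS (BD.cap (-v) a b) (fun z => (starRingEnd ℂ) (F z))) : PCap v a b F :=
  BD.FS.mfs h

theorem fc_spLoc_eq (P Ew R : ℝ) (F : ST n → ℂ) (z : ST n) :
    spLoc P (spW Ew R) F z = BD.wip P Ew R (fun y => (starRingEnd ℂ) (F y)) z := by
  unfold spLoc BD.wip spW BD.wt
  refine lintegral_congr fun y => ?_
  congr 2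
  rw [← ofReal_norm, ← ofReal_norm, RCLike.norm_conj]

theorem PRob.lrob {C ρ : ℝ} {s : Finset ι} {v : ι → E n} {H : ι → ST n → ℂ} (h : PRob C ρ s v H) :
    BD.LRob C ρ s (fun j => -v j) (fun j z => (starRingEnd ℂ) (H j z)) where
  bdd := fun j hj => by rw [norm_neg]; exact h.bdd j hj
  mult := fun ξ t ht h1 => h.mult (-ξ) t ht fun j hj => by
    have := h1 j hj
    rwa [← neg_add', norm_neg, ← sub_neg_eq_add] at this
  fs := fun j hj => h.fs j hj

theorem fc_nearFlat_neg {r : ℕ} {lam : ℝ} {s : Finset ι} {v : ι → E n} (h : BD.NearFlat r lam s v) : BD.NearFlat r lam s (fun j => -v j) := by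
  obtain ⟨N, c, hN, hc⟩ := h
  refine ⟨N, fun i => -c i, hN, fun i j hj => ?_⟩
  have := hc i j hj
  rw [inner_neg_right, ← neg_sub', abs_neg]
  exact this

theorem PRob.mono {C C' ρ : ℝ} (hC : C ≤ C') (hρ : 0 ≤ ρ) {s : Finset ι} {v : ι → E n} {H : ι → ST n → ℂ} (h : PRob C ρ s v H) : PRob C' ρ s v H where
  bdd := fun j hj => (h.bdd j hj).trans hC
  mult := fun ξ t ht h1 => (h.mult ξ t ht h1).trans hC
  fs := fun j hj => (h.fs j hj).mono (mul_le_mul_of_nonneg_right hC hρ) (mul_le_mul_of_nonneg_right hC (by positivity))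

/-- **Lemma d:strip-decoupling** from Bourgain-Demeter -/
theorem fc_sdGen (hBD : BdAll) (n : ℕ) : SdGenStmt n := by
  intro j r P Cr ε Ew hn hP hPj hε hEw
  subst hn
  have hC : (1 : ℝ) ≤ max Cr 1 := le_max_right _ _
  obtain ⟨A, hA0, hA⟩ := BD.fc_sd_loc (V := E (j + r)) r P hP (max Cr 1) hC Ew hEw
  obtain ⟨C', -, hC'⟩ := BD.fc_strip_glob j r P hP (7 * max Cr 1) (by linarith)
  obtain ⟨D₀, hD₀⟩ := hBD j P (ε / 2) hP hPj (by linarith) C'
  refine ⟨A * (max D₀ 0) ^ 2, fun K Θ S v H z hK hR hF => ?_⟩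
  have hK0 : 0 < K := by linarith
  have hρ : 0 < K⁻¹ := inv_pos.2 hK0
  have hρ1 : K⁻¹ ≤ 1 := inv_le_one_of_one_le₀ hK
  have hpow : 0 < K⁻¹ ^ (-(ε / 2)) := Real.rpow_pos_of_pos hρ _
  have h1 : BD.DecLe (E j) P C' K⁻¹ (ENNReal.ofReal (max D₀ 0 * K⁻¹ ^ (-(ε / 2)))) :=
    (hD₀ K⁻¹ hρ hρ1).mono_D (ENNReal.ofReal_le_ofReal (mul_le_mul_of_nonneg_right (le_max_left _ _) hpow.le))
  have h2 := hA K⁻¹ _ hρ hρ1 (hC' K⁻¹ _ hρ hρ1 h1) Θ S _ _ (hR.mono (le_max_left _ _) hρ.le).lrob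
    (fc_nearFlat_neg (BD.fc_nearFlat_mono (mul_le_mul_of_nonneg_right (le_max_left _ _) hρ.le) hF)) (K ^ 2) z (by rw [inv_inv])
  have e1 : (fun y => ∑ θ ∈ S, (starRingEnd ℂ) (H θ y)) = fun y => (starRingEnd ℂ) (∑ θ ∈ S, H θ y) := by
    funext y
    rw [map_sum]
  rw [e1] at h2
  simp only [fc_spLoc_eq]
  refine h2.trans (le_of_eq ?_)
  congr 1
  have hD1 : 0 ≤ max D₀ 0 := le_max_right _ _
  rw [ENNReal.ofReal_rpow_of_nonneg (by positivity) (by norm_num), ← ENNReal.ofReal_mul hA0]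
  congr 1
  rw [Real.rpow_two, mul_pow, ← Real.rpow_natCast (K⁻¹ ^ (-(ε / 2))) 2, ← Real.rpow_mul hρ.le, Real.inv_rpow hK0.le, ← Real.rpow_neg hK0.le]
  have : -(-(ε / 2) * ((2 : ℕ) : ℝ)) = ε := by push_cast; ring
  rw [this]
  ring

theorem fc_ext_zero {g : E n → ℂ} (h : ∀ ξ, g ξ = 0) (z : ST n) : ext g z = 0 := by
  unfold ext
  simp [h]

/-- the numerology of the critical exponent -/
theorem fc_spP_bet (hn : 2 ≤ n) : 2 ≤ spP (bet n) ∧ spP (bet n) * ((n - 1 : ℕ) : ℝ) ≤ 2 * (((n - 1 : ℕ) : ℝ) + 2) ∧ 2 / spP (bet n) = 1 - bet n := by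
  have hn' : (2 : ℝ) ≤ n := by exact_mod_cast hn
  have h1 : ((n - 1 : ℕ) : ℝ) = (n : ℝ) - 1 := by
    rw [Nat.cast_sub (by omega)]
    simp
  have hb : 1 - bet n = ((n : ℝ) - 1) / ((n : ℝ) + 1) := by
    unfold bet
    field_simp
    ring
  have hpos : 0 < ((n : ℝ) - 1) / ((n : ℝ) + 1) := by
    apply div_pos <;> linarith
  unfold spP
  rw [hb, h1]
  refine ⟨?_, ?_, ?_⟩
  · rw [le_div_iff₀ hpos, mul_div_assoc', div_le_iff₀ (by linarith)]
    linarith
  · have : 2 / (((n : ℝ) - 1) / ((n : ℝ) + 1)) * ((n : ℝ) - 1) = 2 * ((n : ℝ) + 1) := by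
      have h2 : (n : ℝ) - 1 ≠ 0 := by linarith
      have h3 : (n : ℝ) + 1 ≠ 0 := by linarith
      field_simp
    rw [this]
    linarith
  · have h2 : (n : ℝ) - 1 ≠ 0 := by linarith
    have h3 : (n : ℝ) + 1 ≠ 0 := by linarith
    field_simp

/-- **the contract `SdStmt n` of SPFL** -/
theorem fc_sdStmt (hn : 2 ≤ n) (h : SdGenStmt n) : SdStmt n := by
  classical
  intro R₀ C₁ C₀ ε Ew hε hEw
  obtain ⟨hP2, hPj, hPe⟩ := fc_spP_bet hn
  set Cr : ℝ := max (R₀ + |C₁|) (max |C₁| |C₀|) with hCr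
  have hCr1 : R₀ + |C₁| ≤ Cr := le_max_left _ _
  have hCr2 : |C₁| ≤ Cr := (le_max_left _ _).trans (le_max_right _ _)
  have hCr3 : |C₀| ≤ Cr := (le_max_right _ _).trans (le_max_right _ _)
  have hCr0 : 0 ≤ Cr := (abs_nonneg _).trans hCr2
  have hEw0 : 0 ≤ Ew := by
    have : (0 : ℝ) ≤ n := Nat.cast_nonneg n
    linarith
  obtain ⟨C, hC⟩ := h (n - 1) 1 (spP (bet n)) Cr ε Ew (by omega) hP2 hPj hε hEw0
  refine ⟨C, fun K Θ S v g e x₀ z hK hdat hsupp hmult he hflat => ?_⟩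
  have hK0 : 0 < K := by linarith
  have hρ : 0 < K⁻¹ := inv_pos.2 hK0
  have hρ1 : K⁻¹ ≤ 1 := inv_le_one_of_one_le₀ hK
  set S' : Finset Θ := S.filter (fun θ => ∃ ξ, g θ ξ ≠ 0) with hS'
  have hsub : S' ⊆ S := Finset.filter_subset _ _
  have hrob : PRob Cr K⁻¹ S' v (fun θ => ext (g θ)) := by
    refine ⟨fun θ hθ => ?_, fun ξ t ht h1 => ?_, fun θ hθ => ?_⟩
    · obtain ⟨hθS, ξ, hξ⟩ := Finset.mem_filter.1 hθ
      have h1 := (hdat θ hθS).supp ξ hξ
      have h2 := hsupp θ hθS ξ hξ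
      have h3 : C₁ / K ≤ |C₁| := by
        rw [div_eq_mul_inv]
        calc C₁ * K⁻¹ ≤ |C₁| * K⁻¹ := mul_le_mul_of_nonneg_right (le_abs_self _) hρ.le
          _ ≤ |C₁| * 1 := mul_le_mul_of_nonneg_left hρ1 (abs_nonneg _)
          _ = |C₁| := mul_one _
      have h4 : ‖v θ‖ ≤ ‖ξ‖ + ‖ξ - v θ‖ := by
        have := norm_sub_le ξ (ξ - v θ)
        simpa using this
      linarith
    · refine (hmult ξ t (ht.trans hsub) fun θ hθ => ?_).trans ((le_abs_self _).trans hCr2)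
      rw [one_div]
      exact h1 θ hθ
    · have hθS := hsub hθ
      refine (fc_pcap_ext (fc_dat_integrable (hdat θ hθS)) (v θ) (C₁ / K) (hsupp θ hθS)).mono ?_ (by positivity)
      rw [div_eq_mul_inv]
      exact mul_le_mul_of_nonneg_right ((le_abs_self _).trans hCr2) hρ.le
  have hfl : BD.NearFlat 1 (Cr * K⁻¹) S' v := by
    refine ⟨fun _ => e, fun _ => inner ℝ e x₀, ?_, fun i θ hθ => ?_⟩
    · rw [orthonormal_iff_ite]
      intro i k
      rw [Subsingleton.elim i k, if_pos rfl, real_inner_self_eq_norm_sq, he, one_pow]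
    · have h1 := hflat θ (hsub hθ)
      rw [← inner_sub_right, real_inner_comm]
      refine h1.trans ?_
      rw [div_eq_mul_inv]
      exact mul_le_mul_of_nonneg_right ((le_abs_self _).trans hCr3) hρ.le
  have h2 := hC K Θ S' v (fun θ => ext (g θ)) z hK hrob hfl
  rw [hPe] at h2
  have e1 : (fun y => ∑ θ ∈ S, ext (g θ) y) = fun y => ∑ θ ∈ S', ext (g θ) y := by
    funext y
    rw [hS', Finset.sum_filter]
    refine Finset.sum_congr rfl fun θ _ => ?_
    split_ifs with hθ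
    · rfl
    · simp only [not_exists, not_not] at hθ
      exact fc_ext_zero hθ y
  rw [e1]
  exact h2.trans (mul_le_mul' le_rfl (Finset.sum_le_sum_of_subset hsub))

end Claimed.Agent.R257
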