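import Claimed.Agent.R257.Frac.GDefs
import Claimed.Agent.Lib.BD.Loc
import Claimed.Agent.R257.Frac.Cyl

/-!
# R257 / Frac / SdLoc : GLOBAL ⟹ LOCAL decoupling with the same weight on both sides          (helper188)          -- KEEP

`w_E(y - z) ≲ R^(-d) ∫ |η((y - z - y')/R)|^p w_E(y') dy'`; global decoupling of the family localised at the centre `z + y'`; Minkowski in `L^{p/2}(w_E(y') dy')`; `∫ |η((y - z - y')/R)|^p w_E(y') dy' ≲ R^d w_E(y - z)`.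
(the scheme of `orth` in `Lib/BD/Loc.lean`, exponent `p` instead of `2`).      EXIT: `fc_sd_loc`.   No sorry.
-/

set_option autoImplicit false
set_option linter.unusedSectionVars false
open MeasureTheory Set Metric
open scoped ENNReal NNReal RealInnerProductSpace

namespace Claimed.Agent.BD

noncomputable section

variable {V : Type} [NormedAddCommGroup V] [InnerProductSpace ℝ V] [FiniteDimensional ℝ V] [MeasurableSpace V] [BorelSpace V]

/-- `FS` fields are `Mfs` fields -/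
theorem FS.mfs {S : Set (V × ℝ)} {F : V × ℝ → ℂ} (h : FS S F) : Mfs S F := ⟨h.continuous, fun _ _ hη => h.mul hη⟩

theorem Mfs.mono {S S' : Set (V × ℝ)} {F : V × ℝ → ℂ} (h : Mfs S F) (hS : S ⊆ S') : Mfs S' F :=
  ⟨h.cont, fun T η hη => (h.mul T η hη).mono (Set.add_subset_add_right hS)⟩

theorem LRob.mono {C C' ρ : ℝ} (hC : C ≤ C') (hρ : 0 ≤ ρ) {ι : Type} {s : Finset ι} {v : ι → V} {H : ι → V × ℝ → ℂ} (h : LRob C ρ s v H) :
    LRob C' ρ s v H where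
  bdd := fun j hj => (h.bdd j hj).trans hC
  mult := fun ξ t ht h1 => (h.mult ξ t ht h1).trans hC
  fs := fun j hj => (h.fs j hj).mono (cap_mono (mul_le_mul_of_nonneg_right hC hρ) (mul_le_mul_of_nonneg_right hC (by positivity)))

/-- a robust family of `Mfs` fields multiplied by `η((y - z)/R)`, `R ≥ ρ⁻²`, is a robust family (proof of `Rob.localize`). -/
theorem LRob.localize {C ρ R : ℝ} {ι : Type} {s : Finset ι} {v : ι → V} {H : ι → V × ℝ → ℂ} (h : LRob C ρ s v H) (hC : 1 ≤ C) (hρ : 0 < ρ) (hρ1 : ρ ≤ 1)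
    (hR : ρ⁻¹ ^ 2 ≤ R) {η : V × ℝ → ℂ} (hη : FS (closedBall 0 1) η) (z : V × ℝ) :
    Rob (7 * C) ρ s v (fun j y => H j y * η (R⁻¹ • (y - z))) := by
  have hR0 : 0 < R := lt_of_lt_of_le (by positivity) hR
  have hr : 1 / R ≤ ρ ^ 2 := by
    rw [div_le_iff₀ hR0]
    calc (1 : ℝ) = ρ ^ 2 * ρ⁻¹ ^ 2 := by field_simp
      _ ≤ ρ ^ 2 * R := mul_le_mul_of_nonneg_left hR (by positivity)
  have hr0 : 0 ≤ 1 / R := by positivity
  refine ⟨fun j hj => (h.bdd j hj).trans (by linarith), fun ξ t ht h' => (h.mult ξ t ht h').trans (by linarith),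
    fun j hj => ?_⟩
  refine ((h.fs j hj).mul _ _ (hη.dilate hR0 z)).mono ((cap_add_ball (v j) (by positivity) hr0).trans
    (cap_mono ?_ ?_))
  · have : ρ ^ 2 ≤ ρ := by nlinarith
    nlinarith
  · have hv := h.bdd j hj
    have h1 : ρ ^ 2 ≤ 1 := by nlinarith
    have h2 : 0 ≤ ρ ^ 2 := by positivity
    have h3 : (1 / R) ^ 2 ≤ ρ ^ 2 := by
      calc (1 / R) ^ 2 = (1 / R) * (1 / R) := by ring
        _ ≤ ρ ^ 2 * 1 := mul_le_mul hr (hr.trans h1) hr0 h2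
        _ = ρ ^ 2 := by ring
    have h4 : 2 * (‖v j‖ + C * ρ) * (1 / R) ≤ 2 * (C + C) * ρ ^ 2 := by
      refine mul_le_mul ?_ hr hr0 (by positivity)
      have : C * ρ ≤ C := by nlinarith
      linarith
    nlinarith

/-- the weight is dominated by the average of the translated bumps (exponent `p`). -/
theorem fc_wt_le {η : V × ℝ → ℂ} (hge : ∀ y, ‖y‖ ≤ 1 → 1 ≤ ‖η y‖) {p : ℝ} (hp : 0 ≤ p) {E : ℝ} (hE : 0 ≤ E) {c₁ : ℝ} (hc₁ : 0 < c₁)
    (hvol : ∀ (z : V × ℝ) (R : ℝ), 0 < R → volume (closedBall z R) = ENNReal.ofReal (c₁ * R ^ (dd V : ℝ)))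
    {R : ℝ} (hR : 0 < R) (x : V × ℝ) :
    wt E R x ≤ ENNReal.ofReal (2 ^ E * c₁⁻¹ * R ^ (-(dd V : ℝ))) *
      ∫⁻ y', ‖η (R⁻¹ • (x - y'))‖ₑ ^ p * wt E R y' := by
  have h1 : ENNReal.ofReal ((1 + 1) ^ (-E)) * wt E R x * ENNReal.ofReal (c₁ * R ^ (dd V : ℝ))
      ≤ ∫⁻ y', ‖η (R⁻¹ • (x - y'))‖ₑ ^ p * wt E R y' := by
    calc ENNReal.ofReal ((1 + 1) ^ (-E)) * wt E R x * ENNReal.ofReal (c₁ * R ^ (dd V : ℝ))
        = ∫⁻ _ in closedBall x R, ENNReal.ofReal ((1 + 1) ^ (-E)) * wt E R x := by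
          rw [setLIntegral_const, hvol x R hR]
      _ ≤ ∫⁻ y' in closedBall x R, ‖η (R⁻¹ • (x - y'))‖ₑ ^ p * wt E R y' := by
          refine setLIntegral_mono' measurableSet_closedBall fun y' hy' => ?_
          rw [mem_closedBall, dist_eq_norm] at hy'
          have h2 : ‖R⁻¹ • (x - y')‖ ≤ 1 := by
            rw [norm_smul, norm_inv, Real.norm_of_nonneg hR.le, norm_sub_rev, inv_mul_le_iff₀ hR, mul_one]
            exact hy'
          have h3 : (1 : ℝ≥0∞) ≤ ‖η (R⁻¹ • (x - y'))‖ₑ ^ p := by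
            have h30 : (1 : ℝ≥0∞) ≤ ‖η (R⁻¹ • (x - y'))‖ₑ := by
              rw [← ofReal_norm]
              exact ENNReal.one_le_ofReal.2 (hge _ h2)
            calc (1 : ℝ≥0∞) = 1 ^ p := (ENNReal.one_rpow p).symm
              _ ≤ _ := ENNReal.rpow_le_rpow h30 hp
          have h4 : ENNReal.ofReal ((1 + 1) ^ (-E)) ≤ wt E R (y' - x) :=
            wt_ge_of_le hE hR (by rw [one_mul]; exact hy')
          have h5 := wt_peetre hE hR x (y' - x)
          rw [add_sub_cancel] at h5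
          calc ENNReal.ofReal ((1 + 1) ^ (-E)) * wt E R x ≤ wt E R (y' - x) * wt E R x := mul_le_mul' h4 le_rfl
            _ = wt E R x * wt E R (y' - x) := mul_comm _ _
            _ ≤ wt E R y' := h5
            _ = 1 * wt E R y' := (one_mul _).symm
            _ ≤ _ := mul_le_mul' h3 le_rfl
      _ ≤ _ := setLIntegral_le_lintegral _ _
  have hRd : 0 < R ^ (dd V : ℝ) := Real.rpow_pos_of_pos hR _
  have h2E : (0 : ℝ) < 2 ^ E := Real.rpow_pos_of_pos (by norm_num) _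
  have hone : 2 ^ E * c₁⁻¹ * R ^ (-(dd V : ℝ)) * ((1 + 1) ^ (-E) * (c₁ * R ^ (dd V : ℝ))) = 1 := by
    rw [Real.rpow_neg hR.le, show (1 + 1 : ℝ) = 2 by norm_num, Real.rpow_neg (by norm_num)]
    field_simp
  calc wt E R x = ENNReal.ofReal (2 ^ E * c₁⁻¹ * R ^ (-(dd V : ℝ))) *
        (ENNReal.ofReal ((1 + 1) ^ (-E)) * wt E R x * ENNReal.ofReal (c₁ * R ^ (dd V : ℝ))) := by
        have e : ENNReal.ofReal (2 ^ E * c₁⁻¹ * R ^ (-(dd V : ℝ))) *
            (ENNReal.ofReal ((1 + 1) ^ (-E)) * wt E R x * ENNReal.ofReal (c₁ * R ^ (dd V : ℝ)))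
            = (ENNReal.ofReal (2 ^ E * c₁⁻¹ * R ^ (-(dd V : ℝ))) *
              (ENNReal.ofReal ((1 + 1) ^ (-E)) * ENNReal.ofReal (c₁ * R ^ (dd V : ℝ)))) * wt E R x := by ring
        rw [e, ← ENNReal.ofReal_mul (by positivity), ← ENNReal.ofReal_mul (by positivity), hone, ENNReal.ofReal_one,
          one_mul]
    _ ≤ _ := mul_le_mul' le_rfl h1

/-- the convolution of the weight with the bump is dominated by the weight (exponent `p`). -/
theorem fc_conv_le {η : V × ℝ → ℂ} {p : ℝ} (hp : 0 < p) {E C₀ : ℝ} (hE : 0 ≤ E) (hC₀ : 0 ≤ C₀)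
    (hdec : ∀ y, ‖η y‖ ≤ C₀ * (1 + ‖y‖) ^ (-((E + ((dd V : ℝ) + 1)) / p))) {c₂ : ℝ}
    (hwt : ∀ R : ℝ, 0 < R → ∫⁻ y : V × ℝ, wt ((dd V : ℝ) + 1) R y = ENNReal.ofReal (c₂ * R ^ (dd V : ℝ)))
    {R : ℝ} (hR : 0 < R) (x : V × ℝ) :
    ∫⁻ y', ‖η (R⁻¹ • (x - y'))‖ₑ ^ p * wt E R y'
      ≤ ENNReal.ofReal (C₀ ^ p) * ENNReal.ofReal (c₂ * R ^ (dd V : ℝ)) * wt E R x := by
  have := orthx_haar (V := V)
  have hpt : ∀ u : V × ℝ, ‖η (R⁻¹ • u)‖ₑ ^ p ≤ ENNReal.ofReal (C₀ ^ p) * wt (E + ((dd V : ℝ) + 1)) R u := by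
    intro u
    have hn : ‖R⁻¹ • u‖ = ‖u‖ / R := by
      rw [norm_smul, norm_inv, Real.norm_of_nonneg hR.le, div_eq_inv_mul]
    have h2 : (0 : ℝ) < 1 + ‖u‖ / R := by positivity
    have h1 := hdec (R⁻¹ • u)
    rw [hn] at h1
    rw [← ofReal_norm, ENNReal.ofReal_rpow_of_nonneg (norm_nonneg _) hp.le]
    unfold wt
    rw [← ENNReal.ofReal_mul (by positivity)]
    refine ENNReal.ofReal_le_ofReal ((Real.rpow_le_rpow (norm_nonneg _) h1 hp.le).trans (le_of_eq ?_))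
    rw [Real.mul_rpow hC₀ (by positivity), ← Real.rpow_mul h2.le]
    congr 2
    field_simp
  calc ∫⁻ y', ‖η (R⁻¹ • (x - y'))‖ₑ ^ p * wt E R y'
      ≤ ∫⁻ y', ENNReal.ofReal (C₀ ^ p) * wt E R x * wt ((dd V : ℝ) + 1) R (x - y') := by
        refine lintegral_mono fun y' => ?_
        have h5 := wt_peetre hE hR (x - y') y'
        rw [sub_add_cancel] at h5
        calc ‖η (R⁻¹ • (x - y'))‖ₑ ^ p * wt E R y'
            ≤ ENNReal.ofReal (C₀ ^ p) * wt (E + ((dd V : ℝ) + 1)) R (x - y') * wt E R y' := mul_le_mul' (hpt _) le_rfl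
          _ = ENNReal.ofReal (C₀ ^ p) * (wt E R (x - y') * wt E R y') * wt ((dd V : ℝ) + 1) R (x - y') := by
              rw [← wt_mul hR]
              ring
          _ ≤ _ := mul_le_mul' (mul_le_mul' le_rfl h5) le_rfl
    _ = ENNReal.ofReal (C₀ ^ p) * wt E R x * ∫⁻ y', wt ((dd V : ℝ) + 1) R (x - y') := by
        rw [lintegral_const_mul]
        exact (measurable_wt _ _).comp (measurable_const.sub measurable_id)
    _ = ENNReal.ofReal (C₀ ^ p) * ENNReal.ofReal (c₂ * R ^ (dd V : ℝ)) * wt E R x := by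
        rw [lintegral_sub_left_eq_self (fun y => wt ((dd V : ℝ) + 1) R y) x, hwt R hR]
        ring

/-- **GLOBAL ⟹ LOCAL**, the same weight on both sides -/
theorem fc_sd_loc (r : ℕ) (p : ℝ) (hp : 2 ≤ p) (C : ℝ) (hC : 1 ≤ C) (Ew : ℝ) (hE : 0 ≤ Ew) :
    ∃ A : ℝ, 0 ≤ A ∧ ∀ (ρ : ℝ) (D : ℝ≥0∞), 0 < ρ → ρ ≤ 1 → StripLe V r p (7 * C) ρ D → SdLe V r p C ρ Ew (ENNReal.ofReal A * D ^ (2 : ℝ)) := by
  have hp0 : 0 < p := by linarith
  obtain ⟨η, hFS, hge, hdecay, -⟩ := exists_eta V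
  have hc : Continuous η := hFS.continuous
  obtain ⟨c₁, hc₁, hvol⟩ := exists_volume_closedBall (V := V)
  obtain ⟨c₂, hc₂, hwt⟩ := exists_lintegral_wt (V := V) (E := (dd V : ℝ) + 1) (by linarith)
  obtain ⟨C₀, hC₀⟩ := hdecay ((Ew + ((dd V : ℝ) + 1)) / p)
  have hC₀0 : 0 ≤ C₀ := by
    have := hC₀ 0
    simp only [norm_zero, add_zero, Real.one_rpow, mul_one] at this
    exact le_trans (norm_nonneg _) this
  have h2E : (0 : ℝ) < 2 ^ Ew := Real.rpow_pos_of_pos (by norm_num) _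
  have hA0 : 0 ≤ 2 ^ Ew * c₁⁻¹ * C₀ ^ p * c₂ := by positivity
  refine ⟨(2 ^ Ew * c₁⁻¹ * C₀ ^ p * c₂) ^ (2 / p), by positivity, fun ρ D hρ hρ1 hD ι s v H hR hF R z hRρ => ?_⟩
  have hR0 : 0 < R := lt_of_lt_of_le (by positivity) hRρ
  have hcH : ∀ j ∈ s, Continuous (H j) := fun j hj => (hR.fs j hj).cont
  have hcS : Continuous fun y => ∑ j ∈ s, H j y := continuous_finsetSum _ hcH
  set e : V × ℝ → ℝ≥0∞ := fun x => ‖η (R⁻¹ • x)‖ₑ ^ p with he
  have hem : Measurable e := (hc.comp (continuous_const_smul R⁻¹)).enorm.measurable.pow_const _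
  have hPm : Measurable fun y : V × ℝ => ‖∑ j ∈ s, H j y‖ₑ ^ p := hcS.enorm.measurable.pow_const _
  have hPj : ∀ j ∈ s, Measurable fun y : V × ℝ => ‖H j y‖ₑ ^ p := fun j hj => (hcH j hj).enorm.measurable.pow_const _
  have hwm : Measurable (wt Ew R : V × ℝ → ℝ≥0∞) := measurable_wt Ew R
  set a₁ : ℝ≥0∞ := ENNReal.ofReal (2 ^ Ew * c₁⁻¹ * R ^ (-(dd V : ℝ))) with ha₁
  set a₂ : ℝ≥0∞ := ENNReal.ofReal (C₀ ^ p) * ENNReal.ofReal (c₂ * R ^ (dd V : ℝ)) with ha₂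
  -- the localised norms
  have hip : ∀ (F : V × ℝ → ℂ) (z' : V × ℝ), ip p (fun y => F y * η (R⁻¹ • (y - z'))) = ∫⁻ y, ‖F y‖ₑ ^ p * e (y - z') := by
    intro F z'
    unfold ip
    refine lintegral_congr fun y => ?_
    rw [enorm_mul, ENNReal.mul_rpow_of_nonneg _ _ hp0.le]
  -- step A
  have stepA : ∀ F : V × ℝ → ℂ, Measurable (fun y => ‖F y‖ₑ ^ p) →
      wip p Ew R F z ≤ a₁ * ∫⁻ y', wt Ew R y' * ∫⁻ y, ‖F y‖ₑ ^ p * e (y - (z + y')) := by
    intro F hFm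
    unfold wip
    calc ∫⁻ y, ‖F y‖ₑ ^ p * wt Ew R (y - z)
        ≤ ∫⁻ y, a₁ * (‖F y‖ₑ ^ p * ∫⁻ y', e (y - (z + y')) * wt Ew R y') := by
          refine lintegral_mono fun y => ?_
          have h1 := fc_wt_le hge hp0.le hE hc₁ hvol hR0 (y - z)
          simp only [sub_sub] at h1
          calc ‖F y‖ₑ ^ p * wt Ew R (y - z) ≤ _ := mul_le_mul' le_rfl h1
            _ = _ := by ring
      _ = a₁ * ∫⁻ y, ‖F y‖ₑ ^ p * ∫⁻ y', e (y - (z + y')) * wt Ew R y' :=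
          lintegral_const_mul' _ _ ENNReal.ofReal_ne_top
      _ = _ := by rw [orthx_swap _ _ _ hFm hwm hem z]
  -- step C
  have stepC : ∀ F : V × ℝ → ℂ, Measurable (fun y => ‖F y‖ₑ ^ p) →
      ∫⁻ y', wt Ew R y' * ∫⁻ y, ‖F y‖ₑ ^ p * e (y - (z + y')) ≤ a₂ * wip p Ew R F z := by
    intro F hFm
    unfold wip
    rw [← orthx_swap _ _ _ hFm hwm hem z,
      ← lintegral_const_mul' _ _ (ENNReal.mul_ne_top ENNReal.ofReal_ne_top ENNReal.ofReal_ne_top)]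
    refine lintegral_mono fun y => ?_
    have h1 := fc_conv_le hp0 hE hC₀0 hC₀ hwt hR0 (y - z)
    simp only [sub_sub] at h1
    calc _ ≤ ‖F y‖ₑ ^ p * _ := mul_le_mul' le_rfl h1
      _ = _ := by ring
  -- decoupling at the centre `z + y'`
  have hdec : ∀ y' : V × ℝ, ∫⁻ y, ‖∑ j ∈ s, H j y‖ₑ ^ p * e (y - (z + y'))
      ≤ D ^ p * (∑ j ∈ s, (∫⁻ y, ‖H j y‖ₑ ^ p * e (y - (z + y'))) ^ (2 / p)) ^ (p / 2) := by
    intro y'
    have h1 := hD ι s v _ (hR.localize hC hρ hρ1 hRρ hFS (z + y'))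
      (fc_nearFlat_mono (mul_le_mul_of_nonneg_right (by linarith) hρ.le) hF)
    have h2 := bdc_pow p hp0 D _ s _ h1
    have e1 : (fun y => ∑ j ∈ s, H j y * η (R⁻¹ • (y - (z + y')))) = fun y => (∑ j ∈ s, H j y) * η (R⁻¹ • (y - (z + y'))) := by
      funext y
      rw [Finset.sum_mul]
    rw [e1, hip] at h2
    simpa only [hip] using h2
  -- measurability of the localised norms in the centre
  have hmj : ∀ j ∈ s, Measurable fun y' : V × ℝ => wt Ew R y' * ∫⁻ y, ‖H j y‖ₑ ^ p * e (y - (z + y')) := by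
    intro j hj
    refine hwm.mul ?_
    refine Measurable.lintegral_prod_right' (f := fun q : (V × ℝ) × (V × ℝ) => ‖H j q.2‖ₑ ^ p * e (q.2 - (z + q.1))) ?_
    exact ((hPj j hj).comp measurable_snd).mul (hem.comp (measurable_snd.sub (measurable_const.add measurable_fst)))
  have main : wip p Ew R (fun y => ∑ j ∈ s, H j y) z ≤ a₁ * (D ^ p * (a₂ * (∑ j ∈ s, wip p Ew R (H j) z ^ (2 / p)) ^ (p / 2))) := by
    refine (stepA _ hPm).trans (mul_le_mul' le_rfl ?_)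
    calc ∫⁻ y', wt Ew R y' * ∫⁻ y, ‖∑ j ∈ s, H j y‖ₑ ^ p * e (y - (z + y'))
        ≤ ∫⁻ y', D ^ p * (∑ j ∈ s, (wt Ew R y' * ∫⁻ y, ‖H j y‖ₑ ^ p * e (y - (z + y'))) ^ (2 / p)) ^ (p / 2) := by
          refine lintegral_mono fun y' => ?_
          have h2p : 0 ≤ 2 / p := by positivity
          have hp2 : 0 ≤ p / 2 := by positivity
          have e2 : (∑ j ∈ s, (wt Ew R y' * ∫⁻ y, ‖H j y‖ₑ ^ p * e (y - (z + y'))) ^ (2 / p)) ^ (p / 2)
              = wt Ew R y' * (∑ j ∈ s, (∫⁻ y, ‖H j y‖ₑ ^ p * e (y - (z + y'))) ^ (2 / p)) ^ (p / 2) := by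
            simp only [ENNReal.mul_rpow_of_nonneg _ _ h2p]
            rw [← Finset.mul_sum, ENNReal.mul_rpow_of_nonneg _ _ hp2, ← ENNReal.rpow_mul]
            have : 2 / p * (p / 2) = 1 := by field_simp
            rw [this, ENNReal.rpow_one]
          rw [e2]
          calc _ ≤ wt Ew R y' * _ := mul_le_mul' le_rfl (hdec y')
            _ = _ := by ring
      _ = D ^ p * ∫⁻ y', (∑ j ∈ s, (wt Ew R y' * ∫⁻ y, ‖H j y‖ₑ ^ p * e (y - (z + y'))) ^ (2 / p)) ^ (p / 2) := by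
          rw [lintegral_const_mul]
          exact (Finset.measurable_fun_sum s fun j hj => (hmj j hj).pow_const _).pow_const _
      _ ≤ D ^ p * (∑ j ∈ s, (∫⁻ y', wt Ew R y' * ∫⁻ y, ‖H j y‖ₑ ^ p * e (y - (z + y'))) ^ (2 / p)) ^ (p / 2) :=
          mul_le_mul' le_rfl (abs_l2Lp hp s _ fun j hj => (hmj j hj).aemeasurable)
      _ ≤ D ^ p * (∑ j ∈ s, (a₂ * wip p Ew R (H j) z) ^ (2 / p)) ^ (p / 2) := by
          refine mul_le_mul' le_rfl (ENNReal.rpow_le_rpow (Finset.sum_le_sum fun j hj => ?_) (by positivity))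
          exact ENNReal.rpow_le_rpow (stepC _ (hPj j hj)) (by positivity)
      _ = _ := by
          have h2p : 0 ≤ 2 / p := by positivity
          have hp2 : 0 ≤ p / 2 := by positivity
          simp only [ENNReal.mul_rpow_of_nonneg _ _ h2p]
          rw [← Finset.mul_sum, ENNReal.mul_rpow_of_nonneg _ _ hp2, ← ENNReal.rpow_mul]
          have : 2 / p * (p / 2) = 1 := by field_simp
          rw [this, ENNReal.rpow_one]
  have hRd : 0 < R ^ (dd V : ℝ) := Real.rpow_pos_of_pos hR0 _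
  have hconst : a₁ * a₂ = ENNReal.ofReal (2 ^ Ew * c₁⁻¹ * C₀ ^ p * c₂) := by
    rw [ha₁, ha₂, ← ENNReal.ofReal_mul (by positivity), ← ENNReal.ofReal_mul (by positivity)]
    congr 1
    rw [Real.rpow_neg hR0.le]
    field_simp
  have h2p : 0 ≤ 2 / p := by positivity
  have h3 := ENNReal.rpow_le_rpow main h2p
  refine h3.trans (le_of_eq ?_)
  have e3 : a₁ * (D ^ p * (a₂ * (∑ j ∈ s, wip p Ew R (H j) z ^ (2 / p)) ^ (p / 2)))
      = (a₁ * a₂) * (D ^ p * (∑ j ∈ s, wip p Ew R (H j) z ^ (2 / p)) ^ (p / 2)) := by ring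
  rw [e3, hconst, ENNReal.mul_rpow_of_nonneg _ _ h2p, ENNReal.mul_rpow_of_nonneg _ _ h2p, ← ENNReal.rpow_mul, ← ENNReal.rpow_mul,
    ENNReal.ofReal_rpow_of_nonneg hA0 h2p]
  have e4 : p * (2 / p) = 2 := by field_simp
  have e5 : p / 2 * (2 / p) = 1 := by field_simp
  rw [e4, e5, ENNReal.rpow_one]
  ring

end

end Claimed.Agent.BD
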