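import Claimed.Agent.R257.Frac.Tools
import Claimed.Agent.R257.Frac.Sd
import Claimed.Agent.R257.Sp.Nar

/-!
# R257 / Frac / Step : d:strip, ONE LEVEL OF THE ITERATION (decoupling in codimension two + parabolic rescaling)          (captain helper188)          (H fractal.tex l.527-580)

The iteration of d:strip runs on the exact arrays `XArr` and the continuous functional `spT b (spW Ew K²)` of helper7 (`Sp/Defs.lean`, `Sp/Fun.lean`, `Sp/Nar.lean`), with a GENERAL exponent `β < b`, `b n ≤ 2`, `P = spP b = 2/(1-b) ≤ q_{n-2}`.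
`StBd n 𝒦 T Ew b K l w X` : `X` bounds the normalised functional of all nodes of scale `l`, shift `0`, whose label frequencies are `w`-close to an affine subspace of codimension two.
ONE LEVEL (`fc_step`):   `StBd (Ew - (n+2)) (l/K) (K w) X  ⟹  StBd Ew l w (C K^(ε + β - b) X)`   if `w ≤ Cw/K`.      Power count: `K^((n+2)(1-b) - n) (K^(n+1))^b K^(-2n/(n+1)) = K^(β - b)`.
Every `sorry` is a LEAF `L-257-FC-S*`.  Statements frozen (tell helper188 at once if one looks false or awkward).  Prove IN PLACE, helper lemmas directly above your theorem, prefix `fc_<leaf>_`.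
-/

set_option autoImplicit false

namespace Claimed.Agent.R257

open MeasureTheory Metric Set
open scoped ENNReal

variable {n : ℕ} {ι : Type}

/-- `X` bounds the normalised functional (exponent `b`) of all nodes of scale `l`, shift `0`, label frequencies `w`-close to an affine subspace of codimension two -/
def StBd (n : ℕ) (𝒦 : XCls) (T Ew b K l w X : ℝ) : Prop :=
  ∀ (ι : Type) (N : XArr n ι) (s : Finset ι) (c : ι → ℂ) (ν : Measure (ST n)) (m : ℝ),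
    N.l = l → N.In s 𝒦 → N.sh = 0 → 0 ≤ m → Grow ν m n → Slab ν (T * l ^ 2) → BD.NearFlat 2 w s N.om →
    spT b (spW Ew (K ^ 2)) (N.fld s c) ν ≤
      ENNReal.ofReal (X * K ^ (2 * ((n : ℝ) + 1)) * m ^ b * l ^ (2 * (n : ℝ) / ((n : ℝ) + 1)) * energy s c)

/-- pointwise form of `fc_dec_T` -/
theorem fc_S1_pointwise (n : ℕ) (hn : 2 ≤ n) (hSd : SdGenStmt n) (𝒦 : XCls) (b ε Ew Cw : ℝ) (hC₁ : 0 ≤ 𝒦.C₁) (hRw : 0 ≤ 𝒦.Rw) (hb0 : 0 < b) (hb1 : b < 1) (hbn : b * n ≤ 2)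
    (hε : 0 < ε) (hE : 0 ≤ Ew) : ∃ C : ℝ, 0 ≤ C ∧
    ∀ (ι : Type) (N : XArr n ι) (s : Finset ι) (c : ι → ℂ) (K w : ℝ) (z : ST n), N.In s 𝒦 → N.sh = 0 → 1 ≤ K → K ≤ N.l → w ≤ Cw / K →
    BD.NearFlat 2 w s N.om →
    spLoc (spP b) (spW Ew (K ^ 2)) (N.fld s c) z ^ (1 - b) ≤
      ENNReal.ofReal (C * K ^ ε) * ∑ θ ∈ N.bins K s, spLoc (spP b) (spW Ew (K ^ 2)) (N.fld (N.sub K s θ) c) z ^ (1 - b) := by
  have hs0 : 0 ≤ Real.sqrt n := Real.sqrt_nonneg _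
  have h1b : 0 < 1 - b := by linarith
  have hn2 : (2 : ℝ) ≤ n := by exact_mod_cast hn
  set Cr : ℝ := max (𝒦.Rw + Real.sqrt n + 1) (max (3 ^ n) (max (Real.sqrt n + 𝒦.C₁) (Cw + Real.sqrt n))) with hCr
  have hCr1 : 𝒦.Rw + Real.sqrt n + 1 ≤ Cr := le_max_left _ _
  have hCr2 : (3 : ℝ) ^ n ≤ Cr := (le_max_left _ _).trans (le_max_right _ _)
  have hCr3 : Real.sqrt n + 𝒦.C₁ ≤ Cr := (le_max_left _ _).trans ((le_max_right _ _).trans (le_max_right _ _))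
  have hCr4 : Cw + Real.sqrt n ≤ Cr := (le_max_right _ _).trans ((le_max_right _ _).trans (le_max_right _ _))
  have hCr0 : 0 ≤ Cr := le_trans (by positivity) hCr2
  have hP2 : 2 ≤ spP b := by
    unfold spP
    rw [le_div_iff₀ h1b]
    linarith
  have hPj : spP b * ((n - 2 : ℕ) : ℝ) ≤ 2 * (((n - 2 : ℕ) : ℝ) + 2) := by
    rw [Nat.cast_sub hn]
    unfold spP
    rw [div_mul_eq_mul_div, div_le_iff₀ h1b]
    push_cast
    nlinarith
  have hPe : 2 / spP b = 1 - b := by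
    unfold spP
    field_simp
  obtain ⟨C, hC⟩ := hSd (n - 2) 2 (spP b) Cr ε Ew (by omega) hP2 hPj hε hE
  refine ⟨max C 0, le_max_right _ _, fun ι N s c K w z hN hsh hK hKl hw hF => ?_⟩
  have hK0 : 0 < K := by linarith
  have hρ : 0 < K⁻¹ := inv_pos.2 hK0
  have hsh1 : ‖N.sh‖ ≤ 1 := by rw [hsh, norm_zero]; exact zero_le_one
  have hsub : ∀ θ, N.sub K s θ ⊆ s := fun θ => Finset.filter_subset _ _
  have hext : ∀ θ, ext (fun ξ => ∑ α ∈ N.sub K s θ, c α * N.g α ξ) = N.fld (N.sub K s θ) c := fun θ => funext (sp_ext_sum hN (hsub θ) c)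
  have hrob : PRob Cr K⁻¹ (N.bins K s) (fun θ => spCtr K θ) (fun θ => N.fld (N.sub K s θ) c) := by
    refine ⟨fun θ hθ => ?_, fun ξ t _ h1 => ?_, fun θ _ => ?_⟩
    · have := sp_N2_ctr hN hK hsh1 hθ
      rw [hsh, add_zero] at this
      exact this.trans hCr1
    · refine (sp_ctr_mult hK0 ξ t fun θ hθ => ?_).trans hCr2
      rw [one_div]
      exact h1 θ hθ
    · rw [← hext θ]
      refine (fc_pcap_ext (fc_dat_integrable (sp_dat hN hsh1 (hsub θ) c)) (spCtr K θ) ((Real.sqrt n + 𝒦.C₁) / K) (fun ξ hξ => ?_)).mono ?_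
        (by positivity)
      · have := sp_N2_supp hN hC₁ hK hKl c θ ξ hξ
        rwa [hsh, add_zero] at this
      · rw [div_eq_mul_inv]
        exact mul_le_mul_of_nonneg_right hCr3 hρ.le
  have hfl : BD.NearFlat 2 (Cr * K⁻¹) (N.bins K s) (fun θ => spCtr K θ) := by
    obtain ⟨Nv, cv, hNv, hc⟩ := hF
    refine ⟨Nv, cv, hNv, fun i θ hθ => ?_⟩
    rw [XArr.bins, Finset.mem_image] at hθ
    obtain ⟨α, hα, rfl⟩ := hθ
    have h1 := hc i α hα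
    have h2 := sp_bin_dist hK0 (N.om α)
    have h3 : |inner ℝ (Nv i) (spCtr K (spBin K (N.om α)) - N.om α)| ≤ Real.sqrt n / (2 * K) := by
      refine (abs_real_inner_le_norm _ _).trans ?_
      rw [hNv.1 i, one_mul, norm_sub_rev]
      exact h2
    have e : inner ℝ (Nv i) (spCtr K (spBin K (N.om α))) - cv i
        = (inner ℝ (Nv i) (N.om α) - cv i) + inner ℝ (Nv i) (spCtr K (spBin K (N.om α)) - N.om α) := by
      rw [inner_sub_right]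
      ring
    rw [e]
    refine (abs_add_le _ _).trans ?_
    have h4 : Real.sqrt n / (2 * K) ≤ Real.sqrt n / K := div_le_div_of_nonneg_left hs0 hK0 (by linarith)
    have h5 : (Cw + Real.sqrt n) / K ≤ Cr * K⁻¹ := by
      rw [div_eq_mul_inv]
      exact mul_le_mul_of_nonneg_right hCr4 hρ.le
    rw [add_div] at h5
    linarith
  have h2 := hC K (Fin n → ℤ) (N.bins K s) (fun θ => spCtr K θ) (fun θ => N.fld (N.sub K s θ) c) z hK hrob hfl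
  rw [hPe] at h2
  have hsplit : N.fld s c = fun y => ∑ θ ∈ N.bins K s, N.fld (N.sub K s θ) c y := funext (sp_fld_split N K s c)
  rw [hsplit]
  refine h2.trans (mul_le_mul' (ENNReal.ofReal_le_ofReal (mul_le_mul_of_nonneg_right (le_max_left _ _) (by positivity))) le_rfl)

/-- L-257-FC-S1 (~300 l.).  **Decoupling of the functional into the bins.**   PLAN (compare the SLAB case of `sp_pointwise`, `Sp/Nar.lean`).  `Θ = N.bins K s`, `v θ = spCtr K θ`, `V θ = N.fld (N.sub K s θ) c = ext g_θ`, `g_θ = ∑_{α ∈ sub θ} c_α g_α`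
(`sp_ext_sum`, `sp_dat` with `‖sh‖ = 0 ≤ 1`, `fc_dat_integrable`), `supp g_θ ⊆ B(v θ, r₀/K)`, `r₀ = √n + C₁` (`In.supp`, `sh = 0`, `sp_bin_dist`, `C₁/l ≤ C₁/K`).
(1) `PRob Cr K⁻¹ Θ v V` with `Cr = max (Rw + √n) (max (3^n) (max r₀ (Cw + √n)))`: `‖v θ‖ ≤ Rw + √n` (a bin of `Θ` contains a label), `sp_ctr_mult`, `fc_pcap_ext` + `PCap.mono`.
(2) `BD.NearFlat 2 (Cr K⁻¹) Θ v`: the same normals; `|⟪N i, v θ⟫ - c i| ≤ |⟪N i, ω_α⟫ - c i| + ‖v θ - ω_α‖ ≤ w + √n/(2K)` (`‖N i‖ = 1`, Cauchy-Schwarz).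
(3) `hSd (n-2) 2 (spP b) Cr ε Ew`: `2 ≤ spP b`, `spP b (n-2) ≤ 2 n` ⟸ `b n ≤ 2`;  `2 / spP b = 1 - b`;  `sp_fld_split`.   This is POINTWISE in the centre `z`.
(4) multiply by `spMass^b`, integrate: `lintegral_mono`, `lintegral_const_mul'`, `Finset.mul_sum`, `lintegral_finset_sum` (measurability: `sp_measurable_spW`, `sp_measurable_mass`, `sp_measurable_loc`, `sp_fld_continuous`). -/
theorem fc_dec_T (n : ℕ) (hn : 2 ≤ n) (hSd : SdGenStmt n) (𝒦 : XCls) (b ε Ew Cw : ℝ) (hC₁ : 0 ≤ 𝒦.C₁) (hRw : 0 ≤ 𝒦.Rw) (hb0 : 0 < b) (hb1 : b < 1) (hbn : b * n ≤ 2)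
    (hε : 0 < ε) (hE : 0 ≤ Ew) : ∃ C : ℝ, 0 ≤ C ∧
    ∀ (ι : Type) (N : XArr n ι) (s : Finset ι) (c : ι → ℂ) (K w : ℝ) (ν : Measure (ST n)) [SFinite ν], N.In s 𝒦 → N.sh = 0 → 1 ≤ K → K ≤ N.l → w ≤ Cw / K →
    BD.NearFlat 2 w s N.om →
    spT b (spW Ew (K ^ 2)) (N.fld s c) ν ≤ ENNReal.ofReal (C * K ^ ε) * ∑ θ ∈ N.bins K s, spT b (spW Ew (K ^ 2)) (N.fld (N.sub K s θ) c) ν := by
  obtain ⟨C, hC, h⟩ := fc_S1_pointwise n hn hSd 𝒦 b ε Ew Cw hC₁ hRw hb0 hb1 hbn hε hE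
  refine ⟨C, hC, ?_⟩
  intro ι N s c K w ν _ hN hsh hK hKl hw hF
  have hwm : Measurable (spW Ew (K ^ 2) : ST n → ℝ≥0∞) := sp_measurable_spW _ _
  have hm : Measurable fun z => spMass (spW Ew (K ^ 2)) ν z ^ b := (sp_measurable_mass hwm ν).pow_const _
  have hA : ∀ θ, Measurable fun z => spLoc (spP b) (spW Ew (K ^ 2)) (N.fld (N.sub K s θ) c) z ^ (1 - b) := fun θ =>
    (sp_measurable_loc _ hwm (sp_fld_continuous hN (Finset.filter_subset _ _) c).measurable).pow_const _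
  have hmA : ∀ θ, Measurable fun z => spMass (spW Ew (K ^ 2)) ν z ^ b *
      spLoc (spP b) (spW Ew (K ^ 2)) (N.fld (N.sub K s θ) c) z ^ (1 - b) := fun θ => hm.mul (hA θ)
  unfold spT
  calc ∫⁻ z, spMass (spW Ew (K ^ 2)) ν z ^ b * spLoc (spP b) (spW Ew (K ^ 2)) (N.fld s c) z ^ (1 - b)
      ≤ ∫⁻ z, ENNReal.ofReal (C * K ^ ε) * ∑ θ ∈ N.bins K s, spMass (spW Ew (K ^ 2)) ν z ^ b *
            spLoc (spP b) (spW Ew (K ^ 2)) (N.fld (N.sub K s θ) c) z ^ (1 - b) := by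
        refine lintegral_mono fun z => ?_
        refine (mul_le_mul_right (h ι N s c K w z hN hsh hK hKl hw hF) _).trans (le_of_eq ?_)
        rw [mul_left_comm, Finset.mul_sum (N.bins K s) _ (spMass (spW Ew (K ^ 2)) ν z ^ b)]
    _ = _ := by
        rw [lintegral_const_mul' _ _ ENNReal.ofReal_ne_top, lintegral_finsetSum _ fun θ _ => hmA θ]

theorem fc_S2_empty (b : ℝ) (hb1 : b < 1) (w : ST n → ℝ≥0∞) (N : XArr n ι) (c : ι → ℂ) (ν : Measure (ST n)) : spT b w (N.fld ∅ c) ν = 0 := by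
  have hP : 0 < spP b := by
    unfold spP
    exact div_pos (by norm_num) (by linarith)
  have e : ∀ z, spLoc (spP b) w (N.fld ∅ c) z = 0 := by
    intro z
    unfold spLoc XArr.fld
    simp only [Finset.sum_empty, enorm_zero, ENNReal.zero_rpow_of_pos hP, zero_mul, lintegral_zero]
  unfold spT
  simp only [e, ENNReal.zero_rpow_of_pos (by linarith : 0 < 1 - b), mul_zero, lintegral_zero]

theorem fc_S2_flat {N : XArr n ι} {s t : Finset ι} {w K : ℝ} (hK : 0 ≤ K) (hts : t ⊆ s) (v₀ : E n) (h : BD.NearFlat 2 w s N.om) :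
    BD.NearFlat 2 (K * w) t (N.child K v₀).om := by
  obtain ⟨Nv, cv, hN, hc⟩ := h
  refine ⟨Nv, fun i => K * (cv i - inner ℝ (Nv i) v₀), hN, fun i α hα => ?_⟩
  show |inner ℝ (Nv i) (K • (N.om α - v₀)) - K * (cv i - inner ℝ (Nv i) v₀)| ≤ K * w
  have e : inner ℝ (Nv i) (K • (N.om α - v₀)) - K * (cv i - inner ℝ (Nv i) v₀) = K * (inner ℝ (Nv i) (N.om α) - cv i) := by
    rw [inner_smul_right, inner_sub_right]
    ring
  rw [e, abs_mul, abs_of_nonneg hK]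
  exact mul_le_mul_of_nonneg_left (hc i α (hts hα)) hK

theorem fc_S2_pow {n : ℕ} {K l m b c₀ : ℝ} (hK : 0 < K) (hl : 0 < l) (hm : 0 ≤ m) (hc₀ : 0 ≤ c₀) :
    K ^ (((n : ℝ) + 2) * (1 - b) - n) * ((c₀ * m * K ^ ((n : ℝ) + 1)) ^ b * (l / K) ^ (2 * (n : ℝ) / ((n : ℝ) + 1)))
      = c₀ ^ b * K ^ (bet n - b) * m ^ b * l ^ (2 * (n : ℝ) / ((n : ℝ) + 1)) := by
  have hn1 : (0 : ℝ) < (n : ℝ) + 1 := by positivity
  rw [Real.mul_rpow (by positivity) (by positivity), Real.mul_rpow hc₀ hm, ← Real.rpow_mul hK.le, Real.div_rpow hl.le hK.le]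
  have e : K ^ (bet n - b) = K ^ (((n : ℝ) + 2) * (1 - b) - n) * K ^ (((n : ℝ) + 1) * b) / K ^ (2 * (n : ℝ) / ((n : ℝ) + 1)) := by
    rw [← Real.rpow_add hK, ← Real.rpow_sub hK]
    congr 1
    unfold bet
    field_simp
    ring
  rw [e]
  have hne : K ^ (2 * (n : ℝ) / ((n : ℝ) + 1)) ≠ 0 := (Real.rpow_pos_of_pos hK _).ne'
  field_simp

/-- L-257-FC-S2 (~250 l.).  **One bin = one child** (compare `sp_narrow`, `Sp/Nar.lean`, which is the case `b = bet n`).   PLAN.  `t = N.sub K s θ`; if `t = ∅` the left side is `0` (`fld = 0`, `spLoc = 0`, `0^(1-b) = 0`).  Otherwise `v₀ = spCtr K θ`, `‖v₀‖ ≤ Rw + √n`.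
`spT_child_le` (`Rv = Rw + √n`, `ρ = K²`, `V' = (N.child K v₀).fld t c`, `sp_child_fld`, `sp_fld_continuous`), then the hypothesis `StBd` at `l/K` for the node `(N.child K v₀, t, ν.map (pmap K v₀))`:
class `sp_child_in` for `t` (`sp_in_subset`; `sp_bin_dist`: `‖ω_α - v₀‖ ≤ √n/(2K) ≤ Rw/K`), shift `K • 0 = 0`, `m' = 2 (1 + 2 Rv)^n m K^(n+1)` (`inf_grow_push`, `a = n`), `inf_slab_push` (`T l²/K² = T (l/K)²`),
`NearFlat 2 (K w) t (fun α => K • (ω_α - v₀))`: same normals, `c' i = K (c i - ⟪N i, v₀⟫)`.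
Powers: `K^((n+2)(1-b) - n) (K^(n+1))^b (l/K)^(2n/(n+1)) = K^(bet n - b) l^(2n/(n+1))`  (`bet n = 2/(n+1)`, `2 - 2n/(n+1) = bet n`).   `SFinite ν` from `sp_grow_sigmaFinite`. -/
theorem fc_bin (n : ℕ) (hn : 2 ≤ n) (𝒦 : XCls) (T Ew b : ℝ) (hRw : Real.sqrt n ≤ 𝒦.Rw) (hb0 : 0 < b) (hb1 : b < 1) (hE : (n : ℝ) + 2 ≤ Ew) : ∃ C : ℝ, 0 ≤ C ∧
    ∀ K l w X : ℝ, 1 ≤ K → K ≤ l → 0 ≤ X → StBd n 𝒦 T (Ew - ((n : ℝ) + 2)) b K (l / K) (K * w) X →
    ∀ (ι : Type) (N : XArr n ι) (s : Finset ι) (c : ι → ℂ) (ν : Measure (ST n)) (m : ℝ) (θ : Fin n → ℤ),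
      N.l = l → N.In s 𝒦 → N.sh = 0 → 0 ≤ m → Grow ν m n → Slab ν (T * l ^ 2) → BD.NearFlat 2 w s N.om →
      spT b (spW Ew (K ^ 2)) (N.fld (N.sub K s θ) c) ν ≤
        ENNReal.ofReal (C * K ^ (bet n - b) * X * K ^ (2 * ((n : ℝ) + 1)) * m ^ b * l ^ (2 * (n : ℝ) / ((n : ℝ) + 1)) * energy (N.sub K s θ) c) := by
  have hs0 : 0 ≤ Real.sqrt n := Real.sqrt_nonneg _
  have hRv : 0 ≤ 𝒦.Rw + Real.sqrt n := by linarith
  obtain ⟨C₀, hC₀, H⟩ := spT_child_le n b (𝒦.Rw + Real.sqrt n) Ew hb0 hb1 hRv hE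
  refine ⟨C₀ * (2 * (1 + 2 * (𝒦.Rw + Real.sqrt n)) ^ (n : ℝ)) ^ b, by positivity, ?_⟩
  intro K l w X hK hKl hX hbd ι N s c ν m θ hl hIn hsh hm hG hS hF
  have hK0 : 0 < K := by linarith
  have hl0 : 0 < l := by linarith
  have hsub : N.sub K s θ ⊆ s := Finset.filter_subset _ _
  rcases (N.sub K s θ).eq_empty_or_nonempty with hemp | ⟨α₀, hα₀⟩
  · rw [hemp, fc_S2_empty b hb1]
    exact zero_le
  haveI : SigmaFinite ν := sp_grow_sigmaFinite hG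
  have hbin : ∀ α ∈ N.sub K s θ, ‖N.om α - spCtr K θ‖ ≤ Real.sqrt n / (2 * K) := by
    intro α hα
    have h1 : spBin K (N.om α) = θ := (Finset.mem_filter.1 hα).2
    have h2 := sp_bin_dist hK0 (N.om α)
    rwa [h1] at h2
  have hsK : Real.sqrt n / (2 * K) ≤ Real.sqrt n := by
    rw [div_le_iff₀ (by positivity)]
    nlinarith
  have hv : ‖spCtr K θ‖ ≤ 𝒦.Rw + Real.sqrt n := by
    have h1 := hbin α₀ hα₀
    have h2 := hIn.dec.freq α₀ (hsub hα₀)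
    have h3 : ‖spCtr K θ‖ ≤ ‖N.om α₀‖ + ‖N.om α₀ - spCtr K θ‖ := by
      have := norm_sub_le (N.om α₀) (N.om α₀ - spCtr K θ)
      rwa [sub_sub_cancel] at this
    linarith
  have hInc : (N.child K (spCtr K θ)).In (N.sub K s θ) 𝒦 := by
    refine sp_child_in (sp_in_subset hIn hsub) hK (by rw [hl]; exact hKl) fun α hα => (hbin α hα).trans ?_
    rw [div_le_div_iff₀ (by positivity) hK0]
    nlinarith
  have h1 := H K (K ^ 2) (spCtr K θ) (N.fld (N.sub K s θ) c) ((N.child K (spCtr K θ)).fld (N.sub K s θ) c) ν hK (by positivity) hv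
    (sp_fld_continuous hInc subset_rfl c).measurable (fun z => sp_child_fld N hK0 (spCtr K θ) (N.sub K s θ) c z)
  have hS' : Slab (ν.map (pmap K (spCtr K θ))) (T * (l / K) ^ 2) := by
    have := inf_slab_push hS hK0 (spCtr K θ)
    rwa [show T * l ^ 2 / K ^ 2 = T * (l / K) ^ 2 by rw [div_pow]; ring] at this
  have h2 := hbd ι (N.child K (spCtr K θ)) (N.sub K s θ) c (ν.map (pmap K (spCtr K θ)))
    (2 * (1 + 2 * (𝒦.Rw + Real.sqrt n)) ^ (n : ℝ) * m * K ^ ((n : ℝ) + 1)) (by show N.l / K = l / K; rw [hl]) hInc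
    (by show K • N.sh = 0; rw [hsh, smul_zero]) (by positivity) (inf_grow_push hG hm (Nat.cast_nonneg n) hK hv) hS'
    (fc_S2_flat hK0.le hsub (spCtr K θ) hF)
  refine h1.trans ((mul_le_mul' le_rfl h2).trans (le_of_eq ?_))
  rw [← ENNReal.ofReal_mul (by positivity)]
  congr 1
  have e := fc_S2_pow (n := n) (b := b) hK0 hl0 hm (by positivity : 0 ≤ 2 * (1 + 2 * (𝒦.Rw + Real.sqrt n)) ^ (n : ℝ))
  calc C₀ * K ^ (((n : ℝ) + 2) * (1 - b) - n) * (X * K ^ (2 * ((n : ℝ) + 1)) * (2 * (1 + 2 * (𝒦.Rw + Real.sqrt n)) ^ (n : ℝ) * m * K ^ ((n : ℝ) + 1)) ^ b *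
        (l / K) ^ (2 * (n : ℝ) / ((n : ℝ) + 1)) * energy (N.sub K s θ) c)
      = C₀ * X * K ^ (2 * ((n : ℝ) + 1)) * energy (N.sub K s θ) c * (K ^ (((n : ℝ) + 2) * (1 - b) - n) *
        ((2 * (1 + 2 * (𝒦.Rw + Real.sqrt n)) ^ (n : ℝ) * m * K ^ ((n : ℝ) + 1)) ^ b * (l / K) ^ (2 * (n : ℝ) / ((n : ℝ) + 1)))) := by ring
    _ = _ := by
        rw [e]
        ring

theorem fc_energy_nonneg (s : Finset ι) (c : ι → ℂ) : 0 ≤ energy s c := Finset.sum_nonneg fun _ _ => by positivity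

/-- **ONE LEVEL** -/
theorem fc_step (n : ℕ) (hn : 2 ≤ n) (hSd : SdGenStmt n) (𝒦 : XCls) (T Ew b ε Cw : ℝ) (hC₁ : 0 ≤ 𝒦.C₁) (hRw : Real.sqrt n ≤ 𝒦.Rw) (hb0 : 0 < b) (hb1 : b < 1) (hbn : b * n ≤ 2)
    (hε : 0 < ε) (hE : (n : ℝ) + 2 ≤ Ew) : ∃ C : ℝ, 0 ≤ C ∧
    ∀ K l w X : ℝ, 1 ≤ K → K ≤ l → w ≤ Cw / K → 0 ≤ X → StBd n 𝒦 T (Ew - ((n : ℝ) + 2)) b K (l / K) (K * w) X →
      StBd n 𝒦 T Ew b K l w (C * K ^ (ε + bet n - b) * X) := by
  have hn0 : (0 : ℝ) ≤ n := Nat.cast_nonneg n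
  obtain ⟨C₁, hC₁0, h1⟩ := fc_dec_T n hn hSd 𝒦 b ε Ew Cw hC₁ ((Real.sqrt_nonneg _).trans hRw) hb0 hb1 hbn hε (by linarith)
  obtain ⟨C₂, hC₂0, h2⟩ := fc_bin n hn 𝒦 T Ew b hRw hb0 hb1 hE
  refine ⟨C₁ * C₂, by positivity, fun K l w X hK hKl hw hX hbd ι N s c ν m hl hIn hsh hm hG hS hF => ?_⟩
  have hK0 : 0 < K := by linarith
  have hl0 : 0 < l := by linarith
  haveI : SigmaFinite ν := sp_grow_sigmaFinite hG
  refine (h1 ι N s c K w ν hIn hsh hK (by rw [hl]; exact hKl) hw hF).trans ?_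
  have h3 : ∀ θ ∈ N.bins K s, spT b (spW Ew (K ^ 2)) (N.fld (N.sub K s θ) c) ν ≤
      ENNReal.ofReal (C₂ * K ^ (bet n - b) * X * K ^ (2 * ((n : ℝ) + 1)) * m ^ b * l ^ (2 * (n : ℝ) / ((n : ℝ) + 1)) * energy (N.sub K s θ) c) :=
    fun θ _ => h2 K l w X hK hKl hX hbd ι N s c ν m θ hl hIn hsh hm hG hS hF
  refine (mul_le_mul' le_rfl (Finset.sum_le_sum h3)).trans (le_of_eq ?_)
  have hpos : 0 ≤ C₂ * K ^ (bet n - b) * X * K ^ (2 * ((n : ℝ) + 1)) * m ^ b * l ^ (2 * (n : ℝ) / ((n : ℝ) + 1)) := by positivity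
  rw [← ENNReal.ofReal_sum_of_nonneg (fun θ _ => mul_nonneg hpos (fc_energy_nonneg _ _)), ← Finset.mul_sum, ← sp_energy_split,
    ← ENNReal.ofReal_mul (by positivity)]
  congr 1
  have e : K ^ (ε + bet n - b) = K ^ ε * K ^ (bet n - b) := by
    rw [← Real.rpow_add hK0]
    congr 1
    ring
  rw [e]
  ring

/-- Stores the on-demand equation lemmas of the definitions above in THIS module (rule 6 hygiene). -/
theorem fc_step_forced : True := by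
  have := @StBd.eq_1
  trivial

end Claimed.Agent.R257
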