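import Claimed.Agent.R257.Frac.Term
import Claimed.Agent.R257.Sp.Root

/-!
# R257 / Frac / Strip : PROPOSITION d:strip (codimension two strip saving)          (captain helper188)          (H fractal.tex l.527-631)

`fc_iter` (`J` levels of `fc_step`) → `fc_node_strip` (choice of `J`, `K = l^(2α/J)`, terminal nodes `fc_term`, root `fc_supN_le_spT` + `spT_coarsen`) → `fc_stripSave` (data `g` = limits of exact arrays, `PktStmt`).
Saving exponent `c₀ = (b - β)/2`.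
-/

set_option autoImplicit false

namespace Claimed.Agent.R257

open MeasureTheory Metric Set
open scoped ENNReal

variable {n : ℕ} {ι : Type}

/-- **`J` levels** -/
theorem fc_iter (n : ℕ) (hn : 2 ≤ n) (hSd : SdGenStmt n) (𝒦 : XCls) (T E₀ b ε Cw : ℝ) (hC₁ : 0 ≤ 𝒦.C₁) (hRw : Real.sqrt n ≤ 𝒦.Rw) (hb0 : 0 < b) (hb1 : b < 1) (hbn : b * n ≤ 2)
    (hε : 0 < ε) (hE : 0 ≤ E₀) (hCw : 0 ≤ Cw) (J : ℕ) : ∃ C : ℝ, 0 ≤ C ∧
    ∀ K l w X : ℝ, 1 ≤ K → K ^ J ≤ l → w * K ^ J ≤ Cw → 0 ≤ X → StBd n 𝒦 T E₀ b K (l / K ^ J) (K ^ J * w) X →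
      StBd n 𝒦 T (E₀ + J * ((n : ℝ) + 2)) b K l w (C * K ^ ((ε + bet n - b) * J) * X) := by
  have hn0 : (0 : ℝ) ≤ n := Nat.cast_nonneg n
  induction J with
  | zero =>
    refine ⟨1, zero_le_one, fun K l w X _ _ _ _ h => ?_⟩
    simpa using h
  | succ J ih =>
    obtain ⟨C₁, hC₁0, h1⟩ := ih
    obtain ⟨C₂, hC₂0, h2⟩ := fc_step n hn hSd 𝒦 T (E₀ + ((J + 1 : ℕ) : ℝ) * ((n : ℝ) + 2)) b ε Cw hC₁ hRw hb0 hb1 hbn hε (by
      push_cast
      nlinarith [Nat.cast_nonneg (α := ℝ) J])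
    refine ⟨C₂ * C₁, by positivity, fun K l w X hK hKl hw hX h => ?_⟩
    have hK0 : 0 < K := by linarith
    have hKJ : 1 ≤ K ^ J := one_le_pow₀ hK
    have hKJ0 : 0 < K ^ J := by positivity
    have e1 : l / K / K ^ J = l / K ^ (J + 1) := by
      rw [div_div, pow_succ, mul_comm]
    have e2 : K ^ J * (K * w) = K ^ (J + 1) * w := by
      rw [pow_succ]
      ring
    have h3 : StBd n 𝒦 T (E₀ + J * ((n : ℝ) + 2)) b K (l / K) (K * w) (C₁ * K ^ ((ε + bet n - b) * J) * X) := by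
      refine h1 K (l / K) (K * w) X hK ?_ ?_ hX (by rw [e1, e2]; exact h)
      · rw [le_div_iff₀ hK0, ← pow_succ]
        exact hKl
      · calc K * w * K ^ J = w * K ^ (J + 1) := by rw [pow_succ]; ring
          _ ≤ Cw := hw
    have e3 : E₀ + ((J + 1 : ℕ) : ℝ) * ((n : ℝ) + 2) - ((n : ℝ) + 2) = E₀ + J * ((n : ℝ) + 2) := by
      push_cast
      ring
    have hKl' : K ≤ l := by
      refine le_trans ?_ hKl
      calc K = K ^ 1 := (pow_one K).symm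
        _ ≤ K ^ (J + 1) := pow_le_pow_right₀ hK (by omega)
    have hw' : w ≤ Cw / K := by
      rw [le_div_iff₀ hK0]
      rcases le_total 0 w with h0 | h0
      · calc w * K = w * K ^ 1 := by rw [pow_one]
          _ ≤ w * K ^ (J + 1) := mul_le_mul_of_nonneg_left (pow_le_pow_right₀ hK (by omega)) h0
          _ ≤ Cw := hw
      · exact (mul_nonpos_of_nonpos_of_nonneg h0 hK0.le).trans hCw
    have h4 := h2 K l w (C₁ * K ^ ((ε + bet n - b) * J) * X) hK hKl' hw' (by positivity) (by rw [e3]; exact h3)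
    have e4 : C₂ * K ^ (ε + bet n - b) * (C₁ * K ^ ((ε + bet n - b) * J) * X) = C₂ * C₁ * K ^ ((ε + bet n - b) * ((J + 1 : ℕ) : ℝ)) * X := by
      have : K ^ ((ε + bet n - b) * ((J + 1 : ℕ) : ℝ)) = K ^ (ε + bet n - b) * K ^ ((ε + bet n - b) * J) := by
        rw [← Real.rpow_add hK0]
        congr 1
        push_cast
        ring
      rw [this]
      ring
    rw [e4] at h4
    exact h4

/-- the numerology of `fc_node_strip`: scales -/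
theorem fc_scales {l α : ℝ} (hl : 1 ≤ l) (hα : 0 < α) (hα8 : α < 1 / 8) (J : ℕ) (hJ : 1 ≤ J) :
    ∃ j : ℕ, j = ⌊(1 - 2 * α) * J / (2 * α)⌋₊ - 2 ∧ 1 ≤ l ^ (2 * α / J) ∧ (l ^ (2 * α / J)) ^ J = l ^ (2 * α) ∧
      (l ^ (2 * α / J)) ^ 2 ≤ l ^ (1 - 2 * α) / (l ^ (2 * α / J)) ^ j ∧ l ^ (1 - 2 * α) / (l ^ (2 * α / J)) ^ j ≤ (l ^ (2 * α / J)) ^ 3 := by
  have hl0 : 0 < l := by linarith
  have hJ0 : (0 : ℝ) < J := by exact_mod_cast hJ
  have hJ1 : (1 : ℝ) ≤ J := by exact_mod_cast hJ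
  set e : ℝ := (1 - 2 * α) * J / (2 * α) with he
  have he3 : 3 ≤ e := by
    rw [he, le_div_iff₀ (by positivity)]
    nlinarith
  have hfl : 3 ≤ ⌊e⌋₊ := Nat.le_floor (by exact_mod_cast he3)
  refine ⟨⌊e⌋₊ - 2, rfl, Real.one_le_rpow hl (by positivity), ?_, ?_, ?_⟩
  · rw [← Real.rpow_natCast, ← Real.rpow_mul hl0.le]
    congr 1
    field_simp
  all_goals
    have hj : ((⌊e⌋₊ - 2 : ℕ) : ℝ) = (⌊e⌋₊ : ℝ) - 2 := by
      rw [Nat.cast_sub (by omega)]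
      norm_num
    have h1 : (⌊e⌋₊ : ℝ) ≤ e := Nat.floor_le (by linarith)
    have h2 : e < (⌊e⌋₊ : ℝ) + 1 := Nat.lt_floor_add_one e
    have hq : l ^ (1 - 2 * α) / (l ^ (2 * α / J)) ^ (⌊e⌋₊ - 2) = l ^ (2 * α / J * (e - ((⌊e⌋₊ : ℝ) - 2))) := by
      rw [← Real.rpow_natCast (l ^ (2 * α / J)), ← Real.rpow_mul hl0.le, hj, ← Real.rpow_sub hl0]
      congr 1
      rw [he]
      field_simp
    rw [hq, ← Real.rpow_natCast (l ^ (2 * α / J)), ← Real.rpow_mul hl0.le]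
    refine Real.rpow_le_rpow_of_exponent_le hl (mul_le_mul_of_nonneg_left ?_ (by positivity))
    push_cast
    linarith

/-- **d:strip for exact arrays** -/
theorem fc_node_strip (n : ℕ) (hn : 2 ≤ n) (hSdG : SdGenStmt n) (hSd : SdStmt n) (hLc : LcStmt n) (hMr : MrSupStmt n) (𝒦 : XCls) (b α ε Cs : ℝ)
    (hC₁ : 0 ≤ 𝒦.C₁) (hRw : Real.sqrt n ≤ 𝒦.Rw) (hA : 2 * (n + 1) ^ 2 + 2 * n + 3 ≤ 𝒦.A) (hb : bet n < b) (hbn : b * n < 2) (hα : 0 < α) (hα8 : α < 1 / 8)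
    (hε : 0 < ε) (hCs : 0 ≤ Cs) : ∃ C : ℝ, 0 ≤ C ∧
    ∀ (ι : Type) (N : XArr n ι) (s : Finset ι) (c : ι → ℂ) (ν : Measure (ST n)) (m : ℝ), N.In s 𝒦 → N.sh = 0 → 0 ≤ m → Grow ν m n → Slab ν (N.l ^ 2) →
      BD.NearFlat 2 (Cs * N.l ^ (-(2 * α))) s N.om →
      supN b ν (N.fld s c) ≤ ENNReal.ofReal (C * m ^ b * N.l ^ (2 * (n : ℝ) / ((n : ℝ) + 1) - (b - bet n) * α + ε) * energy s c) := by
  have hn0 : (0 : ℝ) ≤ n := Nat.cast_nonneg n
  have hn2 : (2 : ℝ) ≤ n := by exact_mod_cast hn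
  have hbet : 0 < bet n := by unfold bet; positivity
  have hb0 : 0 < b := hbet.trans hb
  have hb1 : b < 1 := by nlinarith
  set δ : ℝ := b - bet n with hδ
  have hδ0 : 0 < δ := by rw [hδ]; linarith
  have hε3 : 0 < ε / 3 := by positivity
  obtain ⟨κ, hκ0, hterm⟩ := fc_term n hn hSd hLc hMr 𝒦 1 b (ε / 3) zero_le_one hC₁ hRw hA hb.le hb1 hε3
  set J : ℕ := ⌈2 * κ / δ⌉₊ + 1 with hJ
  have hJ1 : 1 ≤ J := by omega
  have hJ0 : (0 : ℝ) < J := by exact_mod_cast hJ1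
  have hκJ : κ ≤ δ * J / 2 := by
    have h1 : 2 * κ / δ ≤ (⌈2 * κ / δ⌉₊ : ℝ) := Nat.le_ceil _
    have h2 : (⌈2 * κ / δ⌉₊ : ℝ) ≤ J := by rw [hJ]; push_cast; linarith
    have h3 := h1.trans h2
    rw [div_le_iff₀ hδ0] at h3
    linarith
  obtain ⟨Et, Ct, hEt, hCt, hT⟩ := hterm (⌊(1 - 2 * α) * J / (2 * α)⌋₊ - 2)
  obtain ⟨Ci, hCi, hI⟩ := fc_iter n hn hSdG 𝒦 1 Et b (ε / 3) Cs hC₁ hRw hb0 hb1 hbn.le hε3 hEt hCs J
  set Etop : ℝ := Et + J * ((n : ℝ) + 2) with hEtop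
  have hEtop0 : 0 ≤ Etop := by rw [hEtop]; positivity
  obtain ⟨Cr, hCr, hR⟩ := fc_supN_le_spT n hLc b (𝒦.Rw + 1 + 𝒦.C₁) (Etop + ((n : ℝ) + 2)) hb0 hb1 (by positivity)
  obtain ⟨Cc, hCc, hC⟩ := spT_coarsen n b (Etop + ((n : ℝ) + 2)) hb0 hb1 (by linarith)
  refine ⟨Cr * Cc * Ci * Ct, by positivity, fun ι N s c ν m hIn hsh hm hG hS hF => ?_⟩
  have hl : 1 ≤ N.l := hIn.dec.one_le
  have hl0 : 0 < N.l := by linarith
  obtain ⟨j, hj, hK, hKJ, hl₀2, hl₀3⟩ := fc_scales hl hα hα8 J hJ1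
  obtain ⟨K, hKdef⟩ : ∃ K : ℝ, K = N.l ^ (2 * α / J) := ⟨_, rfl⟩
  rw [← hKdef] at hK hKJ hl₀2 hl₀3
  rw [← hj] at hT
  have hK0 : 0 < K := by linarith
  have hKj0 : 0 < K ^ j := by positivity
  have e1 : N.l ^ (1 - 2 * α) / K ^ j * K ^ j = N.l / K ^ J := by
    rw [div_mul_cancel₀ _ hKj0.ne', hKJ, Real.rpow_sub hl0, Real.rpow_one]
  have h1 := hT K (N.l ^ (1 - 2 * α) / K ^ j) (K ^ J * (Cs * N.l ^ (-(2 * α)))) hK hl₀2 hl₀3
  rw [e1] at h1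
  have hlα : N.l ^ (2 * α) ≤ N.l := by
    calc N.l ^ (2 * α) ≤ N.l ^ (1 : ℝ) := Real.rpow_le_rpow_of_exponent_le hl (by linarith)
      _ = N.l := Real.rpow_one _
  have hq0 : 0 < N.l / K ^ J := by positivity
  have h2 := hI K N.l (Cs * N.l ^ (-(2 * α))) (Ct * K ^ κ * (N.l / K ^ J) ^ (ε / 3)) hK (by rw [hKJ]; exact hlα)
    (by
      rw [hKJ, mul_assoc, ← Real.rpow_add hl0]
      simp) (by positivity) h1
  have h3 := h2 ι N s c ν m rfl hIn hsh hm hG (by rw [one_mul]; exact hS) hF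
  have : SigmaFinite ν := sp_grow_sigmaFinite hG
  have hsh1 : ‖N.sh‖ ≤ 1 := by rw [hsh, norm_zero]; exact zero_le_one
  have hdat := sp_dat hIn hsh1 (Finset.Subset.refl s) c
  have hfld : ext (fun ξ => ∑ α ∈ s, c α * N.g α ξ) = N.fld s c := funext fun z => sp_ext_sum hIn (Finset.Subset.refl s) c z
  have h4 := hR _ ν hdat
  rw [hfld] at h4
  have hK2 : 1 ≤ K ^ 2 := one_le_pow₀ hK
  have h5 := hC (K ^ 2) (N.fld s c) ν hK2 (sp_fld_continuous hIn (Finset.Subset.refl s) c).measurable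
  rw [add_sub_cancel_right] at h5
  refine h4.trans ((mul_le_mul' le_rfl (h5.trans (mul_le_mul' le_rfl h3))).trans ?_)
  rw [← ENNReal.ofReal_mul (by positivity), ← ENNReal.ofReal_mul hCr]
  refine ENNReal.ofReal_le_ofReal ?_
  have hen := fc_energy_nonneg s c
  -- the powers
  have p1 : (K ^ 2) ^ (-((n : ℝ) + 1)) * K ^ (2 * ((n : ℝ) + 1)) = 1 := by
    rw [← Real.rpow_natCast K 2, ← Real.rpow_mul hK0.le, ← Real.rpow_add hK0]
    have : ((2 : ℕ) : ℝ) * -((n : ℝ) + 1) + 2 * ((n : ℝ) + 1) = 0 := by push_cast; ring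
    rw [this, Real.rpow_zero]
  have p2 : K ^ ((ε / 3 + bet n - b) * J) * K ^ κ * (N.l / K ^ J) ^ (ε / 3) ≤ N.l ^ (-(δ * α) + ε) := by
    have e2 : N.l / K ^ J = N.l ^ (1 - 2 * α) := by rw [hKJ, Real.rpow_sub hl0, Real.rpow_one]
    rw [e2, hKdef, ← Real.rpow_mul hl0.le, ← Real.rpow_mul hl0.le, ← Real.rpow_mul hl0.le, ← Real.rpow_add hl0, ← Real.rpow_add hl0]
    refine Real.rpow_le_rpow_of_exponent_le hl ?_
    have e3 : 2 * α / J * ((ε / 3 + bet n - b) * J) = 2 * α * (ε / 3 - δ) := by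
      rw [hδ]
      field_simp
      ring
    have e4 : 2 * α / J * κ ≤ α * δ := by
      rw [div_mul_eq_mul_div, div_le_iff₀ hJ0]
      have := mul_le_mul_of_nonneg_left hκJ (by positivity : 0 ≤ 2 * α)
      clear * - this
      linarith
    rw [e3]
    have e5 : 2 * α * (ε / 3 - δ) + 2 * α / J * κ + (1 - 2 * α) * (ε / 3) = -(2 * (α * δ)) + ε / 3 + 2 * α / J * κ := by ring
    rw [e5]
    clear * - e4 hε
    linarith
  have hm' : 0 ≤ m ^ b := Real.rpow_nonneg hm _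
  have hlp : 0 ≤ N.l ^ (2 * (n : ℝ) / ((n : ℝ) + 1)) := Real.rpow_nonneg hl0.le _
  calc Cr * (Cc * (K ^ 2) ^ (-((n : ℝ) + 1)) * (Ci * K ^ ((ε / 3 + bet n - b) * J) * (Ct * K ^ κ * (N.l / K ^ J) ^ (ε / 3)) * K ^ (2 * ((n : ℝ) + 1)) * m ^ b *
          N.l ^ (2 * (n : ℝ) / ((n : ℝ) + 1)) * energy s c))
      = Cr * Cc * Ci * Ct * m ^ b * N.l ^ (2 * (n : ℝ) / ((n : ℝ) + 1)) * energy s c * ((K ^ 2) ^ (-((n : ℝ) + 1)) * K ^ (2 * ((n : ℝ) + 1))) *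
          (K ^ ((ε / 3 + bet n - b) * J) * K ^ κ * (N.l / K ^ J) ^ (ε / 3)) := by ring
    _ ≤ Cr * Cc * Ci * Ct * m ^ b * N.l ^ (2 * (n : ℝ) / ((n : ℝ) + 1)) * energy s c * 1 * N.l ^ (-(δ * α) + ε) := by
        rw [p1]
        exact mul_le_mul_of_nonneg_left p2 (by positivity)
    _ = Cr * Cc * Ci * Ct * m ^ b * N.l ^ (2 * (n : ℝ) / ((n : ℝ) + 1) - δ * α + ε) * energy s c := by
        have : N.l ^ (2 * (n : ℝ) / ((n : ℝ) + 1) - δ * α + ε) = N.l ^ (2 * (n : ℝ) / ((n : ℝ) + 1)) * N.l ^ (-(δ * α) + ε) := by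
          rw [← Real.rpow_add hl0]
          congr 1
          ring
        rw [this]
        ring

theorem fc_cube_ne_top {μ : Measure (ST n)} {m a : ℝ} (hG : Grow μ m a) (k : (Fin n → ℤ) × ℤ) : μ (cube k) ≠ ∞ := by
  have hz : ((WithLp.toLp 2 fun i => (k.1 i : ℝ), (k.2 : ℝ)) : ST n) ∈ cube k :=
    ⟨fun i => ⟨le_rfl, by simp⟩, le_rfl, by simp⟩
  have h1 := measure_mono (μ := μ) (inf_cube_subset_ball k hz)
  have h2 := hG ((WithLp.toLp 2 fun i => (k.1 i : ℝ), (k.2 : ℝ)) : ST n) (Real.sqrt n + 1) (by linarith [Real.sqrt_nonneg (n : ℝ)])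
  exact ((h1.trans h2).trans_lt ENNReal.ofReal_lt_top).ne

/-- **from exact arrays to data** -/
theorem fc_dat_of_nodes (b : ℝ) (hb : 0 ≤ b) {J : Type} (N : XArr n J) (c : J → ℂ) (g : E n → ℂ) {μ : Measure (ST n)} {m a : ℝ} (hG : Grow μ m a)
    (hsum : ∀ z : ST n, HasSum (fun α => c α * ext (N.g α) z) (ext g z)) (B : ℝ≥0∞)
    (hB : ∀ s : Finset J, (∀ α ∈ s, c α ≠ 0) → supN b μ (N.fld s c) ≤ B) : supN b μ (ext g) ≤ B := by
  classical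
  refine fc_supN_of_hasSum b hb μ (fc_cube_ne_top hG) (fun α z => c α * ext (N.g α) z) (ext g) hsum B fun s => ?_
  have e : (fun z => ∑ α ∈ s, c α * ext (N.g α) z) = N.fld (s.filter fun α => c α ≠ 0) c := by
    funext z
    unfold XArr.fld
    rw [Finset.sum_filter]
    refine Finset.sum_congr rfl fun α _ => ?_
    split_ifs with h
    · rfl
    · rw [not_not.1 h, zero_mul]
  rw [e]
  exact hB _ fun α hα => (Finset.mem_filter.1 hα).2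

/-- **Proposition d:strip** -/
theorem fc_stripSave (n : ℕ) (hn : 2 ≤ n) (hSdG : SdGenStmt n) (hSd : SdStmt n) (hLc : LcStmt n) (hMr : MrSupStmt n) (hPkt : PktStmt n) : StripSaveStmt n := by
  intro b hb hbn
  have hbet : 0 < bet n := by unfold bet; positivity
  refine ⟨(b - bet n) / 2, by linarith, fun R₀ Cs α ε hα hα8 hε => ?_⟩
  obtain ⟨Rw, C₁, C₂, C₃, Ce, m₀, hRw, hC₁, hCe, hP⟩ := hPkt R₀ (2 * (n + 1) ^ 2 + 2 * n + 3)
  obtain ⟨C, hC0, hN⟩ := fc_node_strip n hn hSdG hSd hLc hMr ⟨2 * (n + 1) ^ 2 + 2 * n + 3, Rw, C₁, C₂, C₃, m₀⟩ b α (2 * ε) (|Cs| + C₁) hC₁ hRw le_rfl hb hbn hα hα8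
    (by positivity) (by positivity)
  refine ⟨C * Ce, fun S m μ g Nn cn hS hm hG hSl hg hNn hflat => ?_⟩
  have hS0 : 0 < S := by linarith
  have hl : 1 ≤ Real.sqrt S := by rw [Real.one_le_sqrt]; exact hS
  have hl0 : 0 < Real.sqrt S := by linarith
  obtain ⟨J, N, c, hNl, hNsh, hNin, hNen, hNsum, hNlab⟩ := hP (Real.sqrt S) g hl hg
  refine fc_dat_of_nodes b (hbet.trans hb).le N c g hG hNsum _ fun s hs => ?_
  have hpw : ∀ x : ℝ, Real.sqrt S ^ x = S ^ (x / 2) := by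
    intro x
    rw [Real.sqrt_eq_rpow, ← Real.rpow_mul hS0.le]
    congr 1
    ring
  have hF : BD.NearFlat 2 ((|Cs| + C₁) * N.l ^ (-(2 * α))) s N.om := by
    refine ⟨Nn, cn, hNn, fun i α' hα' => ?_⟩
    obtain ⟨ξ, hξ, hξd⟩ := hNlab α' (hs α' hα')
    have h1 := hflat ξ hξ i
    have h2 : |inner ℝ (Nn i) (N.om α') - inner ℝ (Nn i) ξ| ≤ C₁ / Real.sqrt S := by
      rw [← inner_sub_right]
      refine (abs_real_inner_le_norm _ _).trans ?_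
      rw [hNn.1 i, one_mul, norm_sub_rev]
      exact hξd
    have h3 : C₁ / Real.sqrt S ≤ C₁ * N.l ^ (-(2 * α)) := by
      rw [hNl, div_eq_mul_inv, ← Real.rpow_neg_one]
      exact mul_le_mul_of_nonneg_left (Real.rpow_le_rpow_of_exponent_le hl (by linarith)) hC₁
    have h4 : Cs * S ^ (-α) ≤ |Cs| * N.l ^ (-(2 * α)) := by
      rw [hNl, hpw]
      have : -(2 * α) / 2 = -α := by ring
      rw [this]
      exact mul_le_mul_of_nonneg_right (le_abs_self _) (Real.rpow_nonneg hS0.le _)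
    have h5 : |inner ℝ (Nn i) (N.om α') - cn i| ≤ |inner ℝ (Nn i) (N.om α') - inner ℝ (Nn i) ξ| + |inner ℝ (Nn i) ξ - cn i| := by
      have := abs_add_le (inner ℝ (Nn i) (N.om α') - inner ℝ (Nn i) ξ) (inner ℝ (Nn i) ξ - cn i)
      simpa using this
    rw [add_mul]
    linarith
  have h6 := hN J N s c μ m (hNin s) hNsh hm hG (by rw [hNl, Real.sq_sqrt hS0.le]; exact hSl) hF
  refine h6.trans (ENNReal.ofReal_le_ofReal ?_)
  rw [hNl, hpw]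
  have e1 : (2 * (n : ℝ) / ((n : ℝ) + 1) - (b - bet n) * α + 2 * ε) / 2 = (n : ℝ) / ((n : ℝ) + 1) - (b - bet n) / 2 * α + ε := by ring
  rw [e1]
  have hpos : 0 ≤ C * m ^ b * S ^ ((n : ℝ) / ((n : ℝ) + 1) - (b - bet n) / 2 * α + ε) :=
    mul_nonneg (mul_nonneg hC0 (Real.rpow_nonneg hm _)) (Real.rpow_nonneg hS0.le _)
  calc C * m ^ b * S ^ ((n : ℝ) / ((n : ℝ) + 1) - (b - bet n) / 2 * α + ε) * energy s c
      ≤ C * m ^ b * S ^ ((n : ℝ) / ((n : ℝ) + 1) - (b - bet n) / 2 * α + ε) * (Ce * ∫ ξ, ‖g ξ‖ ^ 2) := mul_le_mul_of_nonneg_left (hNen s) hpos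
    _ = _ := by ring

/-- **Contract A** (d:fractal, `d = 1`, slab form) from the power loss estimate for exact arrays `sp_node_power` -/
theorem fc_fractal (n : ℕ) (hn : 2 ≤ n) (hSd : SdStmt n) (hLc : LcStmt n) (hMr : MrSupStmt n) (hPkt : PktStmt n) : FractalStmt n := by
  intro R₀ ε hε
  have hbet : 0 < bet n := by unfold bet; positivity
  obtain ⟨Rw, C₁, C₂, C₃, Ce, m₀, hRw, hC₁, hCe, hP⟩ := hPkt R₀ (2 * (n + 1) ^ 2 + 2 * n + 3)
  obtain ⟨Jd, hJd, hNP⟩ := sp_node_power n hn hSd hLc hMr Rw C₁ 1 (2 * ε) zero_le_one hC₁ hRw (by positivity)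
  obtain ⟨C, hC0, hN⟩ := hNP (2 * (n + 1) ^ 2 + 2 * n + 3) C₂ C₃ m₀ le_rfl
  refine ⟨C * Ce, fun S m μ g hS hm hG hSl hg => ?_⟩
  have hS0 : 0 < S := by linarith
  have hl : 1 ≤ Real.sqrt S := by rw [Real.one_le_sqrt]; exact hS
  obtain ⟨J, N, c, hNl, hNsh, hNin, hNen, hNsum, -⟩ := hP (Real.sqrt S) g hl hg
  refine fc_dat_of_nodes (bet n) hbet.le N c g hG hNsum _ fun s _ => ?_
  have hpw : ∀ x : ℝ, Real.sqrt S ^ x = S ^ (x / 2) := by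
    intro x
    rw [Real.sqrt_eq_rpow, ← Real.rpow_mul hS0.le]
    congr 1
    ring
  have h6 := hN J N s c μ m (hNin s) (by
    rw [hNsh, norm_zero, zero_mul]
    exact Real.rpow_nonneg (by rw [hNl]; positivity) _) hm hG (by rw [hNl, Real.sq_sqrt hS0.le, one_mul]; exact hSl)
  refine h6.trans (ENNReal.ofReal_le_ofReal ?_)
  rw [hNl, hpw]
  have e1 : (2 * (n : ℝ) / ((n : ℝ) + 1) + 2 * ε) / 2 = (n : ℝ) / ((n : ℝ) + 1) + ε := by ring
  rw [e1]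
  have hpos : 0 ≤ C * m ^ bet n * S ^ ((n : ℝ) / ((n : ℝ) + 1) + ε) :=
    mul_nonneg (mul_nonneg hC0 (Real.rpow_nonneg hm _)) (Real.rpow_nonneg hS0.le _)
  calc C * m ^ bet n * S ^ ((n : ℝ) / ((n : ℝ) + 1) + ε) * energy s c
      ≤ C * m ^ bet n * S ^ ((n : ℝ) / ((n : ℝ) + 1) + ε) * (Ce * ∫ ξ, ‖g ξ‖ ^ 2) := mul_le_mul_of_nonneg_left (hNen s) hpos
    _ = _ := by ring

end Claimed.Agent.R257
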