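import Claimed.Agent.R257.Frac.Step
import Claimed.Agent.R257.Sp.Main

/-!
# R257 / Frac / Term : d:strip, THE TERMINAL NODES          (captain helper188)          (H fractal.tex l.582-612, (d:terminal-functional))

The terminal functional estimate `𝒯_b(V', ν') ≤ C K^{C_*} T^{n/(n+1)+ε} (m')^b ‖input‖²`, `C_*` INDEPENDENT of the depth, comes from the engine of helper7 (`sp_iter`, `sp_term`, `sp_brW_loss`: broad-narrow recursion with `ε`-loss, `D = 1`)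
run with the GIVEN `K` from a scale `l₀ ∈ [K², K³]` up to `l₀ K^j`, followed by the reduction `b → β` (`fc_spT_exp_le`).
Every `sorry` is a LEAF `L-257-FC-E*`.  Statements frozen (tell helper188 at once if one looks false or awkward).  Prove IN PLACE, helper lemmas directly above your theorem, prefix `fc_<leaf>_`.
-/

set_option autoImplicit false

namespace Claimed.Agent.R257

open MeasureTheory Metric Set
open scoped ENNReal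

variable {n : ℕ} {ι : Type}

/-- L-257-FC-E1 (~200 l., numerics only).  **The `β`-functional at the scale `l = l₀ K^j`.**   PLAN.  `ε' = ε/2`;  `κ'` from `sp_brW_loss n hn hMr (Rw + 1 + C₁) ε'`;  `κ := n² + 8 n + 2 κ'` (INDEPENDENT of `j`).
Given `j`: `E₀ = spEmin n 𝒦.A`, `Ew = E₀ + j (n+2)`;  `Ct` from `sp_term` (`M = n + 2`, `Ew := E₀`);  `Ci` from `sp_iter` (`M = n+2`, `ε := ε'`, `c := -ε'`, `κ := κ'`, this `j`);  `C = Ci (Ct + 2)`.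
Given `K, l₀`: `k₀ = 0`, `D = 1`, `X₀ = Ct l₀^n 1^(-β)`, `Y = K^(n²+5n+2κ') l^ε' + 1`, `l = l₀ K^j`.   Check: `(l₀ K^i)^(-(-ε')) ≤ l^ε'` and `(l₀ K^i)^(-1) ≤ 1` for `i ≤ j` (`1 ≤ K`, `1 ≤ l₀`);
`K^(ε' j) = (K^j)^ε' ≤ l^ε'`;  `l₀^n ≤ K^(3n)`;  so `Ci K^(ε' j) (X₀ + Y) ≤ C K^κ l^ε`;  `SpBd.mono`. -/
theorem fc_term_beta (n : ℕ) (hn : 2 ≤ n) (hSd : SdStmt n) (hMr : MrSupStmt n) (𝒦 : XCls) (T ε : ℝ) (hT : 0 ≤ T) (hC₁ : 0 ≤ 𝒦.C₁) (hRw : Real.sqrt n ≤ 𝒦.Rw)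
    (hA : 2 * (n + 1) ^ 2 + 2 * n + 3 ≤ 𝒦.A) (hε : 0 < ε) : ∃ κ : ℝ, 0 ≤ κ ∧ ∀ j : ℕ, ∃ Ew C : ℝ, (n : ℝ) + 1 ≤ Ew ∧ 0 ≤ C ∧
    ∀ K l₀ : ℝ, 1 ≤ K → K ^ 2 ≤ l₀ → l₀ ≤ K ^ 3 → SpBd n 𝒦 (n + 2) T Ew 0 K 1 (l₀ * K ^ j) (C * K ^ κ * (l₀ * K ^ j) ^ ε) := by

  obtain ⟨κ', hκ', hBr⟩ := sp_brW_loss n hn hMr (𝒦.Rw + 1 + 𝒦.C₁) (ε / 2) (by positivity)
  have hn0 : (0 : ℝ) ≤ n := Nat.cast_nonneg n
  refine ⟨(n : ℝ) ^ 2 + 8 * n + 2 * κ', by positivity, fun j => ?_⟩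
  obtain ⟨Ct, hCt, hterm⟩ := sp_term n hn 𝒦 (n + 2) T (spEmin n 𝒦.A) hT (by nlinarith) le_rfl
  obtain ⟨Ci, hCi, hiter⟩ := sp_iter n hn hSd 𝒦 (n + 2) T (spEmin n 𝒦.A) (ε / 2) (-(ε / 2)) κ' hT hC₁ hRw (by omega) le_rfl
    (by positivity) hκ' hBr j
  refine ⟨spEmin n 𝒦.A + j * ((n : ℝ) + 2), Ci * (Ct + 2), ?_, by positivity, ?_⟩
  · unfold spEmin
    have h1 : (0 : ℝ) ≤ 𝒦.A := Nat.cast_nonneg _
    have h2 : 0 ≤ (j : ℝ) * ((n : ℝ) + 2) := by positivity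
    nlinarith
  intro K l₀ hK hKl hl₀
  have hK0 : 0 < K := by linarith
  have hl1 : 1 ≤ l₀ := le_trans (one_le_pow₀ hK) hKl
  have hl0 : 0 < l₀ := by linarith
  have hKj : ∀ i : ℕ, 1 ≤ K ^ i := fun i => one_le_pow₀ hK
  obtain ⟨l, hl⟩ : ∃ l, l = l₀ * K ^ j := ⟨_, rfl⟩
  rw [← hl]
  have hl_1 : 1 ≤ l := by rw [hl]; nlinarith [hKj j]
  have hlpos : 0 < l := by linarith
  obtain ⟨u, hu⟩ : ∃ u, u = l ^ (ε / 2) := ⟨_, rfl⟩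
  have hu1 : 1 ≤ u := by rw [hu]; exact Real.one_le_rpow hl_1 (by positivity)
  have huu : l ^ ε = u * u := by
    rw [hu, ← Real.rpow_add hlpos]; congr 1; ring
  have hY : ∀ i : ℕ, i ≤ j → K ^ ((n : ℝ) ^ 2 + 5 * n + 2 * κ') * (l₀ * K ^ i) ^ (-(-(ε / 2))) + (l₀ * K ^ i) ^ (-1 : ℝ)
      ≤ K ^ ((n : ℝ) ^ 2 + 5 * n + 2 * κ') * u + 1 := by
    intro i hi
    rw [neg_neg]
    have h1 : l₀ * K ^ i ≤ l := by rw [hl]; exact mul_le_mul_of_nonneg_left (pow_le_pow_right₀ hK hi) hl0.le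
    have h2 : 1 ≤ l₀ * K ^ i := by nlinarith [hKj i]
    have h3 : (l₀ * K ^ i) ^ (ε / 2) ≤ u := by rw [hu]; exact Real.rpow_le_rpow (by positivity) h1 (by positivity)
    have h4 : (l₀ * K ^ i) ^ (-1 : ℝ) ≤ 1 := Real.rpow_le_one_of_one_le_of_nonpos h2 (by norm_num)
    exact add_le_add (mul_le_mul_of_nonneg_left h3 (by positivity)) h4
  have h := hiter 0 K 1 l₀ (Ct * l₀ ^ (n : ℝ) * 1 ^ (-bet n)) (K ^ ((n : ℝ) ^ 2 + 5 * n + 2 * κ') * u + 1) hK hKl hl0.le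
    (by positivity) (by positivity) one_pos hY (hterm 0 K 1 l₀ hK hKl one_pos)
  rw [← hl] at h
  refine h.mono ?_ hK0.le hlpos.le
  obtain ⟨v, hv⟩ : ∃ v, v = K ^ ((n : ℝ) ^ 2 + 8 * n + 2 * κ') := ⟨_, rfl⟩
  rw [← hv, huu, Real.one_rpow, mul_one]
  have hv1 : 1 ≤ v := by rw [hv]; exact Real.one_le_rpow hK (by positivity)
  have p1 : K ^ (ε / 2 * j) ≤ u := by
    rw [hu, mul_comm, Real.rpow_mul hK0.le, Real.rpow_natCast]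
    refine Real.rpow_le_rpow (by positivity) ?_ (by positivity)
    rw [hl]
    nlinarith [hKj j]
  have p2 : l₀ ^ (n : ℝ) ≤ v := by
    calc l₀ ^ (n : ℝ) ≤ (K ^ 3) ^ (n : ℝ) := Real.rpow_le_rpow hl0.le hl₀ hn0
      _ = K ^ (3 * (n : ℝ)) := by
          rw [← Real.rpow_natCast K 3, ← Real.rpow_mul hK0.le]
          norm_num
      _ ≤ v := by
          rw [hv]
          refine Real.rpow_le_rpow_of_exponent_le hK ?_
          nlinarith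
  have p3 : K ^ ((n : ℝ) ^ 2 + 5 * n + 2 * κ') ≤ v := by
    rw [hv]
    refine Real.rpow_le_rpow_of_exponent_le hK ?_
    linarith
  have p0 : 0 ≤ K ^ (ε / 2 * j) := by positivity
  have q1 : Ct * l₀ ^ (n : ℝ) + (K ^ ((n : ℝ) ^ 2 + 5 * n + 2 * κ') * u + 1) ≤ (Ct + 2) * (v * u) := by
    have a1 : Ct * l₀ ^ (n : ℝ) ≤ Ct * (v * u) := by
      refine mul_le_mul_of_nonneg_left ?_ hCt
      nlinarith
    have a2 : K ^ ((n : ℝ) ^ 2 + 5 * n + 2 * κ') * u ≤ v * u := mul_le_mul_of_nonneg_right p3 (by linarith)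
    have a3 : 1 ≤ v * u := by nlinarith
    linarith
  calc Ci * K ^ (ε / 2 * j) * (Ct * l₀ ^ (n : ℝ) + (K ^ ((n : ℝ) ^ 2 + 5 * n + 2 * κ') * u + 1))
      ≤ Ci * u * ((Ct + 2) * (v * u)) := by
        refine mul_le_mul (mul_le_mul_of_nonneg_left p1 hCi) q1 (by positivity) (by positivity)
    _ = Ci * (Ct + 2) * v * (u * u) := by ring

/-- L-257-FC-E2 (~250 l.).  **The terminal nodes of d:strip.**   PLAN.  `κβ`, and for `j`: `Eβ`, `Cβ` from `fc_term_beta`;  `κ := κβ + 2 n (b - β)`, `Ew := Eβ spP b / spP β`  (`≥ 0`).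
Node `(N, s, c, ν, m)`, `l = l₀ K^j ≥ 1`.  `V = N.fld s c = ext g`, `g = ∑ c_α g_α`, `Dat (Rw + 1 + C₁) g` (`sp_ext_sum`, `sp_dat`, `‖sh‖ = 0 ≤ 1`).
(1) `fc_spT_exp_le` (`R₀ = Rw + 1 + C₁`, `a = β`, `ρ = K²`, `(K²)^n = K^(2n)`): `spT b (spW Ew K²) V ν ≤ C₅ (m K^(2n))^(b-β) spT β (spW Eβ K²) V ν`.
(2) `inf_tubeMom_of_grow n (n+2) le_rfl T Rw`: `TubeMom ν N.toArr s (C₆ m) 1 (n+2)`;  `m' = max C₆ 1 * m`: `Grow ν m' n` (monotone in `m`), `sp_tubeMom_mono`;  `‖sh‖ l = 0 ≤ 0`.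
(3) `SpBd` gives `spT β … ≤ Cβ K^κβ l^ε K^(2(n+1)) m'^β l^(2n/(n+1)) energy`.   (4) `m^(b-β) m^β = m^b` (`Real.rpow_add'` or the case `m = 0` separately).   The hypothesis `NearFlat` of `StBd` is not used. -/
theorem fc_term (n : ℕ) (hn : 2 ≤ n) (hSd : SdStmt n) (hLc : LcStmt n) (hMr : MrSupStmt n) (𝒦 : XCls) (T b ε : ℝ) (hT : 0 ≤ T) (hC₁ : 0 ≤ 𝒦.C₁) (hRw : Real.sqrt n ≤ 𝒦.Rw)
    (hA : 2 * (n + 1) ^ 2 + 2 * n + 3 ≤ 𝒦.A) (hb : bet n ≤ b) (hb1 : b < 1) (hε : 0 < ε) : ∃ κ : ℝ, 0 ≤ κ ∧ ∀ j : ℕ, ∃ Ew C : ℝ, 0 ≤ Ew ∧ 0 ≤ C ∧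
    ∀ K l₀ w : ℝ, 1 ≤ K → K ^ 2 ≤ l₀ → l₀ ≤ K ^ 3 → StBd n 𝒦 T Ew b K (l₀ * K ^ j) w (C * K ^ κ * (l₀ * K ^ j) ^ ε) := by

  obtain ⟨κβ, hκβ, hβ⟩ := fc_term_beta n hn hSd hMr 𝒦 T ε hT hC₁ hRw hA hε
  have hn0 : (0 : ℝ) ≤ n := Nat.cast_nonneg n
  have hn2 : (2 : ℝ) ≤ n := by exact_mod_cast hn
  have hβ0 : 0 < bet n := by unfold bet; positivity
  have hβ1 : bet n < 1 := by
    unfold bet
    rw [div_lt_one (by positivity)]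
    linarith
  have hb0 : 0 < b := lt_of_lt_of_le hβ0 hb
  refine ⟨κβ + 2 * n * (b - bet n), by
    have : 0 ≤ 2 * (n : ℝ) * (b - bet n) := mul_nonneg (by positivity) (by linarith)
    linarith, fun j => ?_⟩
  obtain ⟨Eβ, Cβ, hEβ, hCβ, hbd⟩ := hβ j
  obtain ⟨C₅, hC₅, h5⟩ := fc_spT_exp_le n hLc (𝒦.Rw + 1 + 𝒦.C₁) (bet n) b Eβ hβ0 hb hb1 hEβ
  obtain ⟨C₆, hC₆, h6⟩ := inf_tubeMom_of_grow n (n + 2) le_rfl T 𝒦.Rw
  have hP1 : 0 < spP b := by unfold spP; exact div_pos (by norm_num) (by linarith)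
  have hP2 : 0 < spP (bet n) := by unfold spP; exact div_pos (by norm_num) (by linarith)
  have hEβ0 : 0 ≤ Eβ := by linarith
  refine ⟨Eβ * spP b / spP (bet n), C₅ * Cβ * (max C₆ 1) ^ bet n, by positivity, by positivity, ?_⟩
  intro K l₀ w hK hKl hl₀ ι N s c ν m hNl hIn hsh hm hG hS _
  have hK0 : 0 < K := by linarith
  have hl1 : 1 ≤ l₀ := le_trans (one_le_pow₀ hK) hKl
  have hKj : 1 ≤ K ^ j := one_le_pow₀ hK
  obtain ⟨l, hl⟩ : ∃ l, l = l₀ * K ^ j := ⟨_, rfl⟩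
  rw [← hl] at hNl hS ⊢
  have hl_1 : 1 ≤ l := by rw [hl]; nlinarith
  have hlpos : 0 < l := by linarith
  have hV : N.fld s c = ext (fun ξ => ∑ α ∈ s, c α * N.g α ξ) := by
    funext z
    exact (sp_ext_sum hIn subset_rfl c z).symm
  have hDat : Dat (𝒦.Rw + 1 + 𝒦.C₁) fun ξ => ∑ α ∈ s, c α * N.g α ξ :=
    sp_dat hIn (by rw [hsh]; simp) subset_rfl c
  have s1 := h5 _ ν m (K ^ 2) hm (one_le_pow₀ hK) hG hDat
  rw [← hV] at s1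
  have hm' : m ≤ max C₆ 1 * m := by
    have : 1 * m ≤ max C₆ 1 * m := mul_le_mul_of_nonneg_right (le_max_right _ _) hm
    linarith
  have hm'0 : 0 ≤ max C₆ 1 * m := by positivity
  have hTM : TubeMom ν N.toArr s (max C₆ 1 * m) 1 (n + 2) := by
    have t1 := h6 ι ν N.toArr s m hm hG (by
      have : N.toArr.L = l := hNl
      rw [this]; exact hS) (by
      have : N.toArr.L = l := hNl
      rw [this]; exact hl_1) hIn.dec.freq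
    refine sp_tubeMom_mono t1 subset_rfl (mul_le_mul_of_nonneg_right (le_max_left _ _) hm) ?_ one_pos
    have : N.toArr.L = l := hNl
    rw [this]; exact hlpos.le
  have s2 := hbd K l₀ hK hKl hl₀ ι N s c ν (max C₆ 1 * m) (by rw [hNl, hl]) hIn (by rw [hsh]; simp) hm'0 (sp_grow_mono hG hm')
    (by rw [← hl]; exact hS) hTM
  rw [← hl] at s2
  refine s1.trans ((mul_le_mul_right s2 _).trans (le_of_eq ?_))
  rw [← ENNReal.ofReal_mul (by positivity)]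
  congr 1
  have e1 : (m * (K ^ 2) ^ (n : ℝ)) ^ (b - bet n) = m ^ (b - bet n) * K ^ (2 * n * (b - bet n)) := by
    rw [Real.mul_rpow hm (by positivity), ← Real.rpow_natCast K 2, ← Real.rpow_mul hK0.le, ← Real.rpow_mul hK0.le]
    norm_num
  have e2 : (max C₆ 1 * m) ^ bet n = (max C₆ 1) ^ bet n * m ^ bet n := Real.mul_rpow (by positivity) hm
  have e3 : m ^ b = m ^ (b - bet n) * m ^ bet n := by
    rw [← Real.rpow_add' hm (by rw [sub_add_cancel]; exact hb0.ne'), sub_add_cancel]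
  have e4 : K ^ (κβ + 2 * n * (b - bet n)) = K ^ κβ * K ^ (2 * n * (b - bet n)) := Real.rpow_add hK0 _ _
  rw [e1, e2, e3, e4]
  ring

end Claimed.Agent.R257
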