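import Claimed.Agent.R257.Frac.Pkt
import Claimed.Agent.R257.Sp.Fun
import Claimed.Agent.R257.Infra.ArrB

/-!
# R257 / Frac / Tools : PAPER-FREE TOOLS for contract A and d:strip          (captain helper188)

`d = n + 1`, `ST n = E n × ℝ` (sup norm), `spW Ew ρ u = (1 + |u|/ρ)^(-Ew)`, `spMass w ν z = ∫ w(y - z) dν(y)`, `spLoc P w V z = ∫ |V y|^P w(y - z) dy`, `spP b = 2/(1-b)`,
`spT b w V ν = ∫ spMass^b spLoc^(1-b) dz` (`Sp/Defs.lean`).   `LcStmt n` = locally constant property of exact fields (a hypothesis here).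
ALL PROVED (helper188).
-/

set_option autoImplicit false

namespace Claimed.Agent.R257

open MeasureTheory Metric Set Filter
open scoped ENNReal Topology

variable {n : ℕ} {ι : Type}

theorem fc_T1_sum_iSup {K I : Type} [Nonempty I] [DecidableEq K] (f : K → I → ℝ≥0∞) (Kf : Finset K) : ∀ c B : ℝ≥0∞,
    (∀ ζ : K → I, c + ∑ k ∈ Kf, f k (ζ k) ≤ B) → c + ∑ k ∈ Kf, ⨆ i, f k i ≤ B := by
  induction Kf using Finset.induction_on with
  | empty =>
    intro c B h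
    simpa using h (fun _ => Classical.arbitrary I)
  | insert k₀ Kf hk ih =>
    intro c B h
    rw [Finset.sum_insert hk, ← add_assoc, ENNReal.add_iSup, ENNReal.iSup_add]
    refine iSup_le fun i => ih (c + f k₀ i) B fun ζ => ?_
    have h1 := h (Function.update ζ k₀ i)
    rw [Finset.sum_insert hk, Function.update_self, ← add_assoc] at h1
    refine le_trans (le_of_eq ?_) h1
    congr 1
    refine Finset.sum_congr rfl fun k hk' => ?_
    rw [Function.update_of_ne]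
    rintro rfl
    exact hk hk'

/-- L-257-FC-T1 (~150 l.).  **Limits of finite subsums.**   PLAN.  It suffices: for every finite set `Kf` of cubes and every choice of points `z_k ∈ cube k`: `∑_{k ∈ Kf} ν(cube k)^b ‖U z_k‖ₑ² ≤ B`
(then `ENNReal.tsum_eq_iSup_sum`; `(⨆ x)² = ⨆ x²`, `a * ⨆ = ⨆ a *` (`ENNReal.mul_iSup`), and sums of suprema over INDEPENDENT choices by induction on `Kf` with `ENNReal.iSup_add_iSup_le`-type lemmas; or choose `z_k` with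
`‖U z_k‖ₑ` close to the supremum).   For fixed points the left side is the limit along `atTop : Filter (Finset J)` of `∑_{k ∈ Kf} ν(cube k)^b ‖∑_{α ∈ s} F α z_k‖ₑ²` (continuity of `enorm`, of `x ↦ a * x ^ 2` for `a ≠ ∞`,
`tendsto_finset_sum`), and each of these is `≤ supN b ν (∑_{α ∈ s} F α) ≤ B` (`ENNReal.sum_le_tsum`, `le_iSup₂`);  `le_of_tendsto'`. -/
theorem fc_supN_of_hasSum {J : Type} (b : ℝ) (hb : 0 ≤ b) (ν : Measure (ST n)) (hfin : ∀ k, ν (cube k) ≠ ∞) (F : J → ST n → ℂ) (U : ST n → ℂ)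
    (h : ∀ z, HasSum (fun α => F α z) (U z)) (B : ℝ≥0∞) (hB : ∀ s : Finset J, supN b ν (fun z => ∑ α ∈ s, F α z) ≤ B) : supN b ν U ≤ B := by
  classical
  have ha : ∀ k, ν (cube k) ^ b ≠ ∞ := fun k => ENNReal.rpow_ne_top_of_nonneg hb (hfin k)
  unfold supN
  rw [ENNReal.tsum_eq_iSup_sum]
  refine iSup_le fun Kf => ?_
  have hmap : ∀ (V : ST n → ℂ) (k : (Fin n → ℤ) × ℤ), ν (cube k) ^ b * (⨆ z ∈ cube k, ‖V z‖ₑ) ^ 2 = ⨆ z : ST n, ν (cube k) ^ b * (⨆ (_ : z ∈ cube k), ‖V z‖ₑ) ^ 2 := by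
    intro V k
    have hc : Continuous fun x : ℝ≥0∞ => ν (cube k) ^ b * x ^ 2 := (ENNReal.continuous_const_mul (ha k)).comp (ENNReal.continuous_pow 2)
    have hm : Monotone fun x : ℝ≥0∞ => ν (cube k) ^ b * x ^ 2 := fun x y hxy => by
      dsimp only
      gcongr
    exact Monotone.map_iSup_of_continuousAt (f := fun x : ℝ≥0∞ => ν (cube k) ^ b * x ^ 2) hc.continuousAt hm (by simp)
  simp_rw [hmap U]
  have key := fc_T1_sum_iSup (fun (k : (Fin n → ℤ) × ℤ) (z : ST n) => ν (cube k) ^ b * (⨆ (_ : z ∈ cube k), ‖U z‖ₑ) ^ 2) Kf 0 B ?_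
  · simpa using key
  intro ζ
  rw [zero_add]
  have ht : Tendsto (fun s : Finset J => ∑ k ∈ Kf, ν (cube k) ^ b * (⨆ (_ : ζ k ∈ cube k), ‖∑ α ∈ s, F α (ζ k)‖ₑ) ^ 2) atTop
      (𝓝 (∑ k ∈ Kf, ν (cube k) ^ b * (⨆ (_ : ζ k ∈ cube k), ‖U (ζ k)‖ₑ) ^ 2)) := by
    refine tendsto_finsetSum _ fun k _ => ENNReal.Tendsto.const_mul (ENNReal.Tendsto.pow ?_) (Or.inr (ha k))
    by_cases hk : ζ k ∈ cube k
    · simp only [hk, iSup_pos]
      exact (h (ζ k)).enorm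
    · simp only [hk, iSup_false]
      exact tendsto_const_nhds
  refine le_of_tendsto' ht fun s => le_trans ?_ (hB s)
  unfold supN
  refine le_trans (Finset.sum_le_sum fun k _ => ?_) (ENNReal.sum_le_tsum Kf)
  rw [hmap]
  exact le_iSup (fun z : ST n => ν (cube k) ^ b * (⨆ (_ : z ∈ cube k), ‖∑ α ∈ s, F α z‖ₑ) ^ 2) (ζ k)

theorem fc_T2_mass (Ew : ℝ) (hE : 0 ≤ Ew) (ν : Measure (ST n)) (k : (Fin n → ℤ) × ℤ) {z : ST n} (hz : z ∈ cube k) :
    ν (cube k) ≤ ENNReal.ofReal ((Real.sqrt n + 2) ^ Ew) * spMass (spW Ew 1) ν z := by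
  have hs : 0 ≤ Real.sqrt (n : ℝ) := Real.sqrt_nonneg _
  have hpos : 0 < (Real.sqrt n + 2) ^ Ew := Real.rpow_pos_of_pos (by linarith) _
  have h1 : ENNReal.ofReal ((Real.sqrt n + 2) ^ (-Ew)) * ν (cube k) ≤ spMass (spW Ew 1) ν z := by
    unfold spMass
    rw [← setLIntegral_const]
    refine le_trans (setLIntegral_mono' (inf_cube_measurable k) fun y hy => ?_) (setLIntegral_le_lintegral _ _)
    unfold spW
    refine ENNReal.ofReal_le_ofReal ?_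
    have hy' := inf_cube_subset_ball k hz hy
    rw [mem_closedBall, dist_eq_norm] at hy'
    rw [div_one, Real.rpow_neg (by linarith), Real.rpow_neg (by positivity)]
    refine inv_anti₀ (Real.rpow_pos_of_pos (by positivity) _) (Real.rpow_le_rpow (by positivity) (by linarith) hE)
  calc ν (cube k) = ENNReal.ofReal ((Real.sqrt n + 2) ^ Ew) * (ENNReal.ofReal ((Real.sqrt n + 2) ^ (-Ew)) * ν (cube k)) := by
        rw [← mul_assoc, ← ENNReal.ofReal_mul hpos.le, ← Real.rpow_add (by linarith)]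
        simp
    _ ≤ _ := by gcongr

/-- L-257-FC-T2 (~150 l.).  **`supN ≤ C spT` at unit scale, any `b`** (= L-257-SP-R1 of `Sp/Root.lean` with `b` instead of `bet n`).   For `z ∈ cube k` (`inf_cube_subset_ball`, `r = √n + 1`):
`ν (cube k) ≤ (√n + 2)^Ew spMass (spW Ew 1) ν z`, and `LcStmt` (`P = spP b ≥ 1`, `r = √n + 1`): `(sup_{cube k} |F|)² = ((sup |F|)^P)^(1-b) ≤ (C spLoc P (spW Ew 1) F z)^(1-b)`.
`volume (cube k) = 1`, so `ν(cube k)^b sup² ≤ C ∫_{cube k} spMass^b spLoc^(1-b)` (`setLIntegral_mono'`, `setLIntegral_const`); `lintegral_iUnion` (`inf_cube_measurable`, disjointness from `inf_cube_partition`), `setLIntegral_le_lintegral`. -/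
theorem fc_supN_le_spT (n : ℕ) (hLc : LcStmt n) (b R₀ Ew : ℝ) (h0 : 0 < b) (h1 : b < 1) (hE : 0 ≤ Ew) : ∃ C : ℝ, 0 ≤ C ∧ ∀ (g : E n → ℂ) (ν : Measure (ST n)), Dat R₀ g →
    supN b ν (ext g) ≤ ENNReal.ofReal C * spT b (spW Ew 1) (ext g) ν := by
  have hb1 : 0 < 1 - b := by linarith
  have hP : 1 ≤ spP b := by
    unfold spP
    rw [le_div_iff₀ hb1]
    linarith
  have hP0 : 0 < spP b := by linarith
  have hPb : spP b * (1 - b) = 2 := by
    unfold spP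
    field_simp
  obtain ⟨C, hC⟩ := hLc R₀ (spP b) Ew (Real.sqrt n + 1) hP
  have hs : 0 ≤ Real.sqrt (n : ℝ) := Real.sqrt_nonneg _
  refine ⟨((Real.sqrt n + 2) ^ Ew) ^ b * (max C 0) ^ (1 - b), by positivity, fun g ν hg => ?_⟩
  have hpt : ∀ (k : (Fin n → ℤ) × ℤ), ∀ z ∈ cube k, ν (cube k) ^ b * (⨆ y ∈ cube k, ‖ext g y‖ₑ) ^ 2 ≤
      ENNReal.ofReal (((Real.sqrt n + 2) ^ Ew) ^ b * (max C 0) ^ (1 - b)) * (spMass (spW Ew 1) ν z ^ b * spLoc (spP b) (spW Ew 1) (ext g) z ^ (1 - b)) := by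
    intro k z hz
    have a1 : ν (cube k) ^ b ≤ ENNReal.ofReal (((Real.sqrt n + 2) ^ Ew) ^ b) * spMass (spW Ew 1) ν z ^ b := by
      refine (ENNReal.rpow_le_rpow (fc_T2_mass Ew hE ν k hz) h0.le).trans (le_of_eq ?_)
      rw [ENNReal.mul_rpow_of_nonneg _ _ h0.le, ENNReal.ofReal_rpow_of_nonneg (by positivity) h0.le]
    have a2 : (⨆ y ∈ cube k, ‖ext g y‖ₑ) ^ spP b ≤ ENNReal.ofReal (max C 0) * spLoc (spP b) (spW Ew 1) (ext g) z := by
      rw [← ENNReal.le_rpow_inv_iff hP0]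
      refine iSup₂_le fun y hy => ?_
      rw [ENNReal.le_rpow_inv_iff hP0]
      have hy' := inf_cube_subset_ball k hz hy
      rw [mem_closedBall, dist_eq_norm] at hy'
      refine (hC g z y hg hy').trans ?_
      gcongr
      exact le_max_left _ _
    have a3 : (⨆ y ∈ cube k, ‖ext g y‖ₑ) ^ 2 ≤ ENNReal.ofReal ((max C 0) ^ (1 - b)) * spLoc (spP b) (spW Ew 1) (ext g) z ^ (1 - b) := by
      have := ENNReal.rpow_le_rpow a2 hb1.le
      rw [← ENNReal.rpow_mul, hPb, ENNReal.mul_rpow_of_nonneg _ _ hb1.le, ENNReal.ofReal_rpow_of_nonneg (le_max_right _ _) hb1.le] at this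
      simpa using this
    calc ν (cube k) ^ b * (⨆ y ∈ cube k, ‖ext g y‖ₑ) ^ 2
        ≤ (ENNReal.ofReal (((Real.sqrt n + 2) ^ Ew) ^ b) * spMass (spW Ew 1) ν z ^ b) * (ENNReal.ofReal ((max C 0) ^ (1 - b)) * spLoc (spP b) (spW Ew 1) (ext g) z ^ (1 - b)) := mul_le_mul' a1 a3
      _ = _ := by
        rw [ENNReal.ofReal_mul (by positivity)]
        ring
  unfold supN spT
  have hdisj : Pairwise (Function.onFun Disjoint fun k : (Fin n → ℤ) × ℤ => (cube k : Set (ST n))) := by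
    intro k k' hkk
    refine Set.disjoint_left.2 fun z hz hz' => hkk ?_
    obtain ⟨k₀, -, hu⟩ := inf_cube_partition z
    rw [hu k hz, hu k' hz']
  calc ∑' k : (Fin n → ℤ) × ℤ, ν (cube k) ^ b * (⨆ z ∈ cube k, ‖ext g z‖ₑ) ^ 2
      ≤ ∑' k : (Fin n → ℤ) × ℤ, ∫⁻ z in cube k, ENNReal.ofReal (((Real.sqrt n + 2) ^ Ew) ^ b * (max C 0) ^ (1 - b)) * (spMass (spW Ew 1) ν z ^ b * spLoc (spP b) (spW Ew 1) (ext g) z ^ (1 - b)) := by
        refine ENNReal.tsum_le_tsum fun k => ?_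
        have : ν (cube k) ^ b * (⨆ z ∈ cube k, ‖ext g z‖ₑ) ^ 2 = ∫⁻ _ in cube k, ν (cube k) ^ b * (⨆ z ∈ cube k, ‖ext g z‖ₑ) ^ 2 := by
          rw [setLIntegral_const, inf_cube_volume, mul_one]
        rw [this]
        exact setLIntegral_mono' (inf_cube_measurable k) (hpt k)
    _ = ∫⁻ z in ⋃ k : (Fin n → ℤ) × ℤ, cube k, ENNReal.ofReal (((Real.sqrt n + 2) ^ Ew) ^ b * (max C 0) ^ (1 - b)) * (spMass (spW Ew 1) ν z ^ b * spLoc (spP b) (spW Ew 1) (ext g) z ^ (1 - b)) :=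
        (lintegral_iUnion inf_cube_measurable hdisj _).symm
    _ ≤ ∫⁻ z, ENNReal.ofReal (((Real.sqrt n + 2) ^ Ew) ^ b * (max C 0) ^ (1 - b)) * (spMass (spW Ew 1) ν z ^ b * spLoc (spP b) (spW Ew 1) (ext g) z ^ (1 - b)) := setLIntegral_le_lintegral _ _
    _ = _ := lintegral_const_mul' _ _ ENNReal.ofReal_ne_top

theorem fc_T3_pt {Ew ρ : ℝ} (hE : 0 ≤ Ew) (hρ : 0 < ρ) (u : ST n) : ∃ k : ℕ, ‖u‖ ≤ 2 ^ k * ρ ∧ (1 + ‖u‖ / ρ) ^ (-Ew) ≤ 2 ^ Ew * ((2 : ℝ) ^ k) ^ (-Ew) := by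
  classical
  have hex : ∃ k : ℕ, ‖u‖ ≤ 2 ^ k * ρ := by
    obtain ⟨k, hk⟩ := pow_unbounded_of_one_lt (‖u‖ / ρ) (one_lt_two : (1 : ℝ) < 2)
    exact ⟨k, by rw [div_lt_iff₀ hρ] at hk; exact hk.le⟩
  have hx : 0 ≤ ‖u‖ / ρ := by positivity
  refine ⟨Nat.find hex, Nat.find_spec hex, ?_⟩
  rcases Nat.eq_zero_or_pos (Nat.find hex) with h0 | h0
  · rw [h0, pow_zero, Real.one_rpow, mul_one]
    exact (Real.rpow_le_one_of_one_le_of_nonpos (by linarith) (by linarith)).trans (Real.one_le_rpow one_le_two hE)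
  · obtain ⟨j, hj⟩ : ∃ j, Nat.find hex = j + 1 := ⟨Nat.find hex - 1, by omega⟩
    have hm := Nat.find_min hex (m := j) (by omega)
    rw [not_le] at hm
    rw [hj]
    have h2 : (2 : ℝ) ^ j ≤ 1 + ‖u‖ / ρ := by
      have : (2 : ℝ) ^ j < ‖u‖ / ρ := by rw [lt_div_iff₀ hρ]; exact hm
      linarith
    have h3 : (2 : ℝ) ^ Ew * ((2 : ℝ) ^ (j + 1)) ^ (-Ew) = ((2 : ℝ) ^ j) ^ (-Ew) := by
      rw [pow_succ, Real.mul_rpow (by positivity) (by positivity), mul_comm (((2 : ℝ) ^ j) ^ (-Ew)), ← mul_assoc, ← Real.rpow_add (by norm_num)]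
      simp
    rw [h3]
    exact Real.rpow_le_rpow_of_nonpos (by positivity) h2 (by linarith)

/-- L-257-FC-T3 (~150 l.).  **The weighted mass.**   Annuli `A₀ = closedBall z ρ`, `A_k = closedBall z (2^k ρ) \ closedBall z (2^(k-1) ρ)`: there `spW Ew ρ (y - z) ≤ 2^(-(k-1) Ew)`, `ν A_k ≤ m (2^k ρ)^n`;
`∑_k 2^(kn - (k-1) Ew) ≤ 2^Ew ∑ 2^(-k)`  (`lintegral_iUnion_le`, `setLIntegral_mono'`; model: `inf_A8_far` in `Infra/Alg.lean`). -/
theorem fc_mass_le (n : ℕ) (Ew : ℝ) (hE : (n : ℝ) + 1 ≤ Ew) : ∃ C : ℝ, 0 ≤ C ∧ ∀ (ν : Measure (ST n)) (m ρ : ℝ) (z : ST n), 0 ≤ m → 1 ≤ ρ → Grow ν m n →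
    spMass (spW Ew ρ) ν z ≤ ENNReal.ofReal (C * m * ρ ^ (n : ℝ)) := by
  have hE0 : 0 ≤ Ew := by
    have : (0 : ℝ) ≤ n := Nat.cast_nonneg n
    linarith
  refine ⟨2 ^ Ew * 2, by positivity, fun ν m ρ z hm hρ hG => ?_⟩
  have hρ0 : 0 < ρ := by linarith
  unfold spMass
  calc ∫⁻ y, spW Ew ρ (y - z) ∂ν
      ≤ ∫⁻ y, ∑' k : ℕ, (closedBall z (2 ^ k * ρ)).indicator (fun _ => ENNReal.ofReal (2 ^ Ew * ((2 : ℝ) ^ k) ^ (-Ew))) y ∂ν := by
        refine lintegral_mono fun y => ?_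
        obtain ⟨k, hk1, hk2⟩ := fc_T3_pt hE0 hρ0 (y - z)
        refine le_trans ?_ (ENNReal.le_tsum k)
        rw [Set.indicator_of_mem (by rw [mem_closedBall, dist_eq_norm]; exact hk1)]
        exact ENNReal.ofReal_le_ofReal hk2
    _ = ∑' k : ℕ, ENNReal.ofReal (2 ^ Ew * ((2 : ℝ) ^ k) ^ (-Ew)) * ν (closedBall z (2 ^ k * ρ)) := by
        rw [lintegral_tsum fun k => (measurable_const.indicator measurableSet_closedBall).aemeasurable]
        refine tsum_congr fun k => ?_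
        rw [lintegral_indicator_const measurableSet_closedBall]
    _ ≤ ∑' k : ℕ, ENNReal.ofReal (2 ^ Ew * m * ρ ^ (n : ℝ) * (1 / 2) ^ k) := by
        refine ENNReal.tsum_le_tsum fun k => ?_
        have h1 : (1 : ℝ) ≤ 2 ^ k := one_le_pow₀ one_le_two
        have hr : (1 : ℝ) ≤ 2 ^ k * ρ := by nlinarith
        refine (mul_le_mul_right (hG z _ hr) _).trans ?_
        rw [← ENNReal.ofReal_mul (by positivity)]
        refine ENNReal.ofReal_le_ofReal ?_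
        rw [Real.mul_rpow (by positivity) hρ0.le]
        have h2 : ((2 : ℝ) ^ k) ^ (-Ew) * ((2 : ℝ) ^ k) ^ (n : ℝ) ≤ (1 / 2) ^ k := by
          rw [← Real.rpow_add (by positivity)]
          refine (Real.rpow_le_rpow_of_exponent_le h1 (show -Ew + (n : ℝ) ≤ -1 by linarith)).trans (le_of_eq ?_)
          rw [Real.rpow_neg_one, one_div, inv_pow]
        calc 2 ^ Ew * ((2 : ℝ) ^ k) ^ (-Ew) * (m * (((2 : ℝ) ^ k) ^ (n : ℝ) * ρ ^ (n : ℝ)))
            = 2 ^ Ew * m * ρ ^ (n : ℝ) * (((2 : ℝ) ^ k) ^ (-Ew) * ((2 : ℝ) ^ k) ^ (n : ℝ)) := by ring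
          _ ≤ _ := mul_le_mul_of_nonneg_left h2 (by positivity)
    _ = ENNReal.ofReal (2 ^ Ew * 2 * m * ρ ^ (n : ℝ)) := by
        rw [← ENNReal.ofReal_tsum_of_nonneg (fun k => by positivity) (summable_geometric_two.mul_left _), tsum_mul_left, tsum_geometric_two]
        congr 1
        ring

/-- L-257-FC-T6 (~15 l.) -/
theorem fc_spW_anti {Ew Ew' ρ : ℝ} (h : Ew ≤ Ew') (hρ : 0 < ρ) (u : ST n) : spW Ew' ρ u ≤ spW Ew ρ u := by
  unfold spW
  have hx : 0 ≤ ‖u‖ / ρ := by positivity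
  exact ENNReal.ofReal_le_ofReal (Real.rpow_le_rpow_of_exponent_le (by linarith) (by linarith))

/-- L-257-FC-T6 (~15 l.) -/
theorem fc_spW_mono_rad {Ew ρ ρ' : ℝ} (hE : 0 ≤ Ew) (hρ : 0 < ρ) (h : ρ ≤ ρ') (u : ST n) : spW Ew ρ u ≤ spW Ew ρ' u := by
  unfold spW
  have hx : 0 ≤ ‖u‖ / ρ' := by have := hρ.trans_le h; positivity
  refine ENNReal.ofReal_le_ofReal (Real.rpow_le_rpow_of_nonpos (by linarith) ?_ (by linarith))
  have : ‖u‖ / ρ' ≤ ‖u‖ / ρ := div_le_div_of_nonneg_left (norm_nonneg _) hρ h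
  linarith

/-- L-257-FC-T6 (~25 l.).  Peetre (= `BD.wt_peetre`; `spW = BD.wt` by `rfl` after unfolding) -/
theorem fc_spW_peetre {Ew ρ : ℝ} (hE : 0 ≤ Ew) (hρ : 0 < ρ) (u u' : ST n) : spW Ew ρ u * spW Ew ρ u' ≤ spW Ew ρ (u + u') := by
  unfold spW
  have hx : 0 ≤ ‖u‖ / ρ := by positivity
  have hx' : 0 ≤ ‖u'‖ / ρ := by positivity
  have hx'' : 0 ≤ ‖u + u'‖ / ρ := by positivity
  rw [← ENNReal.ofReal_mul (by positivity), ← Real.mul_rpow (by positivity) (by positivity)]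
  refine ENNReal.ofReal_le_ofReal (Real.rpow_le_rpow_of_nonpos (by positivity) ?_ (by linarith))
  have h1 : ‖u + u'‖ / ρ ≤ ‖u‖ / ρ + ‖u'‖ / ρ := by
    rw [← add_div]
    exact div_le_div_of_nonneg_right (norm_add_le _ _) hρ.le
  nlinarith [mul_nonneg hx hx']

/-- L-257-FC-T6 (~40 l.; `lintegral_mono`, `ENNReal.rpow_le_rpow`) -/
theorem fc_spT_mono_weight {b : ℝ} (h0 : 0 ≤ b) (h1 : b ≤ 1) {w w' : ST n → ℝ≥0∞} (h : ∀ u, w u ≤ w' u) (V : ST n → ℂ) (ν : Measure (ST n)) :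
    spT b w V ν ≤ spT b w' V ν := by
  unfold spT
  refine lintegral_mono fun z => mul_le_mul' (ENNReal.rpow_le_rpow ?_ h0) (ENNReal.rpow_le_rpow ?_ (by linarith))
  · exact lintegral_mono fun y => h _
  · exact lintegral_mono fun y => mul_le_mul_right (h _) _

theorem fc_T4_spW_rpow {Ew ρ t : ℝ} (hρ : 0 < ρ) (ht : 0 ≤ t) (u : ST n) : spW Ew ρ u ^ t = spW (Ew * t) ρ u := by
  unfold spW
  have hx : 0 ≤ ‖u‖ / ρ := by positivity
  rw [ENNReal.ofReal_rpow_of_nonneg (by positivity) ht, ← Real.rpow_mul (by positivity)]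
  congr 2
  ring

theorem fc_T4_pt (hLc : LcStmt n) (R₀ Q Ew : ℝ) (hQ : 1 ≤ Q) (hE : 0 ≤ Ew) : ∃ C : ℝ, 1 ≤ C ∧ ∀ (g : E n → ℂ) (ρ : ℝ) (z y : ST n), 1 ≤ ρ → Dat R₀ g →
    ‖ext g y‖ₑ ^ Q * spW Ew ρ (y - z) ≤ ENNReal.ofReal C * spLoc Q (spW Ew ρ) (ext g) z := by
  obtain ⟨C, hC⟩ := hLc R₀ Q Ew 0 hQ
  refine ⟨max C 1, le_max_right _ _, fun g ρ z y hρ hg => ?_⟩
  have hρ0 : 0 < ρ := by linarith
  have h1 := hC g y y hg (by simp)
  have hfin : spW Ew ρ (y - z) ≠ ∞ := by unfold spW; exact ENNReal.ofReal_ne_top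
  calc ‖ext g y‖ₑ ^ Q * spW Ew ρ (y - z) ≤ (ENNReal.ofReal (max C 1) * spLoc Q (spW Ew 1) (ext g) y) * spW Ew ρ (y - z) := by
        refine mul_le_mul_left (h1.trans ?_) _
        gcongr
        exact le_max_left _ _
    _ = ENNReal.ofReal (max C 1) * ∫⁻ y', ‖ext g y'‖ₑ ^ Q * spW Ew 1 (y' - y) * spW Ew ρ (y - z) := by
        rw [mul_assoc, lintegral_mul_const' _ _ hfin]
        rfl
    _ ≤ _ := by
        refine mul_le_mul_right (lintegral_mono fun y' => ?_) _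
        rw [mul_assoc]
        refine mul_le_mul_right ?_ _
        have := fc_spW_peetre hE hρ0 (y' - y) (y - z)
        rw [sub_add_sub_cancel] at this
        exact (mul_le_mul_left (fc_spW_mono_rad hE one_pos hρ _) _).trans this

/-- L-257-FC-T4 (~200 l.).  **Bernstein / reverse Hölder at scale `ρ ≥ 1`** for exact fields with bounded frequencies.   PLAN.  `V = ext g`, `w = spW Ew ρ`, `L = spLoc Q w V z`.
(1) `LcStmt` (`P := Q`, weight exponent `Ew`, `r = 0`, centre `y`): `|V y|^Q ≤ C ∫ |V y'|^Q spW Ew 1 (y' - y) dy'`; `spW Ew 1 ≤ spW Ew ρ` (`fc_spW_mono_rad`); Peetre: `w(y' - y) w(y - z) ≤ w(y' - z)`.  Hence `|V y|^Q w(y - z) ≤ C L` for ALL `y`.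
(2) `spW (Ew P/Q) ρ u = (spW Ew ρ u)^(P/Q)`, so `|V y|^P spW (Ew P/Q) ρ (y - z) = x^(P/Q) = x * x^(P/Q - 1) ≤ x (C L)^(P/Q - 1)`, `x = |V y|^Q w(y - z)`.   (3) integrate: `spLoc P … ≤ (C L)^(P/Q - 1) L`; raise to the power `2/P`.
Everything in `ℝ≥0∞` (`L = ∞`, `L = 0` need no separate treatment if `C ≥ 1`). -/
theorem fc_loc_bern (n : ℕ) (hLc : LcStmt n) (R₀ P Q Ew : ℝ) (hQ : 1 ≤ Q) (hQP : Q ≤ P) (hE : 0 ≤ Ew) : ∃ C : ℝ, 0 ≤ C ∧ ∀ (g : E n → ℂ) (ρ : ℝ) (z : ST n), 1 ≤ ρ → Dat R₀ g →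
    spLoc P (spW (Ew * P / Q) ρ) (ext g) z ^ (2 / P) ≤ ENNReal.ofReal C * spLoc Q (spW Ew ρ) (ext g) z ^ (2 / Q) := by
  obtain ⟨C, hC1, hC⟩ := fc_T4_pt hLc R₀ Q Ew hQ hE
  have hQ0 : 0 < Q := by linarith
  have hP0 : 0 < P := by linarith
  have hC0 : 0 < C := by linarith
  have hPQ : 0 ≤ P / Q - 1 := by
    rw [sub_nonneg, le_div_iff₀ hQ0]
    linarith
  refine ⟨C ^ (2 / Q), by positivity, fun g ρ z hρ hg => ?_⟩
  have hρ0 : 0 < ρ := by linarith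
  by_cases hL : spLoc Q (spW Ew ρ) (ext g) z = ∞
  · rw [hL, ENNReal.top_rpow_of_pos (by positivity), ENNReal.mul_top (by
      rw [Ne, ENNReal.ofReal_eq_zero, not_le]
      positivity)]
    exact le_top
  have hfin : (ENNReal.ofReal C * spLoc Q (spW Ew ρ) (ext g) z) ^ (P / Q - 1) ≠ ∞ :=
    ENNReal.rpow_ne_top_of_nonneg hPQ (ENNReal.mul_ne_top ENNReal.ofReal_ne_top hL)
  have h1 : spLoc P (spW (Ew * P / Q) ρ) (ext g) z ≤ (ENNReal.ofReal C * spLoc Q (spW Ew ρ) (ext g) z) ^ (P / Q) := by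
    calc spLoc P (spW (Ew * P / Q) ρ) (ext g) z
        = ∫⁻ y, (‖ext g y‖ₑ ^ Q * spW Ew ρ (y - z)) * (‖ext g y‖ₑ ^ Q * spW Ew ρ (y - z)) ^ (P / Q - 1) := by
          unfold spLoc
          refine lintegral_congr fun y => ?_
          have e1 : (‖ext g y‖ₑ ^ Q * spW Ew ρ (y - z)) * (‖ext g y‖ₑ ^ Q * spW Ew ρ (y - z)) ^ (P / Q - 1) = (‖ext g y‖ₑ ^ Q * spW Ew ρ (y - z)) ^ (P / Q) := by
            conv_lhs => rw [← ENNReal.rpow_one (‖ext g y‖ₑ ^ Q * spW Ew ρ (y - z))]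
            rw [← ENNReal.rpow_mul, one_mul, ← ENNReal.rpow_add_of_nonneg _ _ zero_le_one hPQ]
            congr 1
            ring
          rw [e1, ENNReal.mul_rpow_of_nonneg _ _ (by positivity), ← ENNReal.rpow_mul, fc_T4_spW_rpow hρ0 (by positivity)]
          congr 2
          · field_simp
          · ring_nf
      _ ≤ ∫⁻ y, (‖ext g y‖ₑ ^ Q * spW Ew ρ (y - z)) * (ENNReal.ofReal C * spLoc Q (spW Ew ρ) (ext g) z) ^ (P / Q - 1) :=
          lintegral_mono fun y => mul_le_mul_right (ENNReal.rpow_le_rpow (hC g ρ z y hρ hg) hPQ) _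
      _ = spLoc Q (spW Ew ρ) (ext g) z * (ENNReal.ofReal C * spLoc Q (spW Ew ρ) (ext g) z) ^ (P / Q - 1) := by
          rw [lintegral_mul_const' _ _ hfin]
          rfl
      _ ≤ (ENNReal.ofReal C * spLoc Q (spW Ew ρ) (ext g) z) * (ENNReal.ofReal C * spLoc Q (spW Ew ρ) (ext g) z) ^ (P / Q - 1) := by
          refine mul_le_mul_left ?_ _
          calc spLoc Q (spW Ew ρ) (ext g) z = 1 * spLoc Q (spW Ew ρ) (ext g) z := (one_mul _).symm
            _ ≤ _ := mul_le_mul_left (by rw [← ENNReal.ofReal_one]; exact ENNReal.ofReal_le_ofReal hC1) _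
      _ = _ := by
          conv_lhs => rw [← ENNReal.rpow_one (ENNReal.ofReal C * spLoc Q (spW Ew ρ) (ext g) z)]
          rw [← ENNReal.rpow_mul, one_mul, ← ENNReal.rpow_add_of_nonneg _ _ zero_le_one hPQ]
          congr 1
          ring
  have h2 := ENNReal.rpow_le_rpow h1 (show 0 ≤ 2 / P by positivity)
  rw [← ENNReal.rpow_mul] at h2
  have e2 : P / Q * (2 / P) = 2 / Q := by field_simp
  rw [e2, ENNReal.mul_rpow_of_nonneg _ _ (by positivity), ENNReal.ofReal_rpow_of_nonneg hC0.le (by positivity)] at h2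
  exact h2

/-- L-257-FC-T5 (~150 l.).  **Lowering the exponent `b` of the functional** (H fractal.tex l.600-612: "its `b`th power is at most `(C K^{2n} m')^{b-β}` times its `β`th power").   POINTWISE in `z`, `E' = Ew spP b/spP a ≥ Ew`:
`spMass (spW E' ρ) ≤ spMass (spW Ew ρ)` (`fc_spW_anti`), `M^b = M^a M^(b-a)` (`ENNReal.rpow_add_of_nonneg`), `M^(b-a) ≤ (C m ρ^n)^(b-a)` (`fc_mass_le`);  `spLoc^(1-b) = spLoc^(2/spP b) ≤ C spLoc_a^(2/spP a) = C spLoc_a^(1-a)` (`fc_loc_bern`, `Q = spP a ≥ 2`, `P = spP b`).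
Then `lintegral_mono`, `lintegral_const_mul'`. -/
theorem fc_spT_exp_le (n : ℕ) (hLc : LcStmt n) (R₀ a b Ew : ℝ) (ha : 0 < a) (hab : a ≤ b) (hb : b < 1) (hE : (n : ℝ) + 1 ≤ Ew) : ∃ C : ℝ, 0 ≤ C ∧
    ∀ (g : E n → ℂ) (ν : Measure (ST n)) (m ρ : ℝ), 0 ≤ m → 1 ≤ ρ → Grow ν m n → Dat R₀ g →
    spT b (spW (Ew * spP b / spP a) ρ) (ext g) ν ≤ ENNReal.ofReal (C * (m * ρ ^ (n : ℝ)) ^ (b - a)) * spT a (spW Ew ρ) (ext g) ν := by
  have hE0 : 0 ≤ Ew := by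
    have : (0 : ℝ) ≤ n := Nat.cast_nonneg n
    linarith
  have h1a : 0 < 1 - a := by linarith
  have h1b : 0 < 1 - b := by linarith
  have hPa : 1 ≤ spP a := by
    unfold spP
    rw [le_div_iff₀ h1a]
    linarith
  have hPab : spP a ≤ spP b := by
    unfold spP
    exact div_le_div_of_nonneg_left (by norm_num) h1b (by linarith)
  have hPa0 : 0 < spP a := by linarith
  have e1a : 2 / spP a = 1 - a := by unfold spP; field_simp
  have e1b : 2 / spP b = 1 - b := by unfold spP; field_simp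
  obtain ⟨Cm, hCm, hM⟩ := fc_mass_le n Ew hE
  obtain ⟨Cb, hCb, hB⟩ := fc_loc_bern n hLc R₀ (spP b) (spP a) Ew hPa hPab hE0
  refine ⟨Cb * Cm ^ (b - a), by positivity, fun g ν m ρ hm hρ hG hg => ?_⟩
  have hρ0 : 0 < ρ := by linarith
  have hEE : Ew ≤ Ew * spP b / spP a := by
    rw [le_div_iff₀ hPa0]
    exact mul_le_mul_of_nonneg_left hPab hE0
  unfold spT
  rw [← lintegral_const_mul' _ _ ENNReal.ofReal_ne_top]
  refine lintegral_mono fun z => ?_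
  have m1 : spMass (spW (Ew * spP b / spP a) ρ) ν z ^ b ≤ spMass (spW Ew ρ) ν z ^ a * ENNReal.ofReal ((Cm * m * ρ ^ (n : ℝ)) ^ (b - a)) := by
    have : spMass (spW (Ew * spP b / spP a) ρ) ν z ≤ spMass (spW Ew ρ) ν z := lintegral_mono fun y => fc_spW_anti hEE hρ0 _
    refine (ENNReal.rpow_le_rpow this (ha.le.trans hab)).trans ?_
    have e : b = a + (b - a) := by ring
    conv_lhs => rw [e]
    rw [ENNReal.rpow_add_of_nonneg _ _ ha.le (by linarith)]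
    refine mul_le_mul_right ?_ _
    rw [← ENNReal.ofReal_rpow_of_nonneg (by positivity) (by linarith)]
    exact ENNReal.rpow_le_rpow (hM ν m ρ z hm hρ hG) (by linarith)
  have m2 := hB g ρ z hρ hg
  rw [e1a, e1b] at m2
  refine (mul_le_mul' m1 m2).trans (le_of_eq ?_)
  have e3 : Cb * Cm ^ (b - a) * (m * ρ ^ (n : ℝ)) ^ (b - a) = (Cm * m * ρ ^ (n : ℝ)) ^ (b - a) * Cb := by
    rw [mul_assoc Cm, Real.mul_rpow hCm (by positivity)]
    ring
  rw [e3, ENNReal.ofReal_mul (by positivity)]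
  ring

end Claimed.Agent.R257
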